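import Crest.Agent.N41.Step.Defs
import Crest.Agent.N41.ES.Res
import Crest.Agent.N41.Local.Norm
import Mathlib
import Crest.Agent.N41.Defs
import Crest.Agent.N41.DefsC
import Crest.Agent.N41.ES.Lift
import Crest.Agent.N41.ES.Op

-- ▼ part N41/Step/Core
section

/-!
# Row 41, module B5: the combinatorial core of the step

Raising the cut-offs, inclusion–exclusion for `∏ nf = ∏ (ν - fail)`, and the fibre bound of the
failure terms.  No asymptotics here: the tail bounds are hypotheses.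
-/

set_option autoImplicit false

namespace Crest.Agent.N41.Step

open Finset
open scoped BigOperators
open Local (Om ptA ptB tens RP)
open ES (proj qq res mem_low)

variable {D : ℕ} {ι : Type} [Fintype ι] [DecidableEq ι] {V : ι → Type} [∀ i, Fintype (V i)]

/-- `g` is a truncated model of a fibre of a global function, with conductors in `[y, M]` -/
def Mod (q : ι → ℕ) (M y : ℝ) (g : (∀ i, V i) → ℝ) : Prop :=
  ∃ (f : (∀ i, V i) → ℝ) (U : Finset ι) (s : ∀ i, V i) (F : Finset (Finset ι)),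
    Glob q (M ^ 2) f ∧ (qq q U : ℝ) ≤ M ∧
    (∀ T ∈ F, Disjoint T U ∧ y ≤ (qq q T : ℝ) ∧ (qq q T : ℝ) ≤ M) ∧ g = proj F (res U s f)

lemma Mod.mono {q : ι → ℕ} {M y y' : ℝ} {g : (∀ i, V i) → ℝ} (h : Mod q M y g) (hy : y' ≤ y) :
    Mod q M y' g := by
  obtain ⟨f, U, s, F, h1, h2, h3, h4⟩ := h
  exact ⟨f, U, s, F, h1, h2, fun T hT => ⟨(h3 T hT).1, hy.trans (h3 T hT).2.1, (h3 T hT).2.2⟩, h4⟩

lemma mod_low {q : ι → ℕ} (hq : ∀ i, 1 ≤ q i) {M y : ℝ} {f : (∀ i, V i) → ℝ}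
    (hf : Glob q (M ^ 2) f) {S W : Finset ι} (hW : W ⊆ S) (hWM : (qq q W : ℝ) ≤ M) (hy : y ≤ M)
    (s : ∀ i, V i) : Mod q M 1 (proj (low q S y) (res W s f)) :=
  ⟨f, W, s, _, hf, hWM, fun T hT => ⟨(mem_low.1 hT).1.mono_right hW,
    by exact_mod_cast ES.one_le_qq hq T, (mem_low.1 hT).2.trans hy⟩, rfl⟩

lemma mod_sdiff {q : ι → ℕ} {M y y' Z : ℝ} {f : (∀ i, V i) → ℝ}
    (hf : Glob q (M ^ 2) f) {S W : Finset ι} (hW : W ⊆ S) (hWM : (qq q W : ℝ) ≤ M) (hy : y ≤ M)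
    (hy' : Z ≤ y') (s : ∀ i, V i) : Mod q M Z (proj (low q S y \ low q S y') (res W s f)) := by
  refine ⟨f, W, s, _, hf, hWM, fun T hT => ?_, rfl⟩
  obtain ⟨h1, h2⟩ := mem_sdiff.1 hT
  have h3 := mem_low.1 h1
  refine ⟨h3.1.mono_right hW, hy'.trans (le_of_not_ge fun h => h2 (mem_low.2 ⟨h3.1, h⟩)),
    h3.2.trans hy⟩

lemma proj_eq_add_sub (F G : Finset (Finset ι)) (f : (∀ i, V i) → ℝ) (x : ∀ i, V i) :
    proj F f x = proj G f x + proj (F \ G) f x - proj (G \ F) f x := by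
  have h1 := ES.proj_sdiff (inter_subset_left (s₂ := G) (s₁ := F)) f x
  have h2 := ES.proj_sdiff (inter_subset_right (s₂ := G) (s₁ := F)) f x
  rw [sdiff_inter_self_left] at h1
  rw [sdiff_inter_self_right] at h2
  linarith

/-- the functional of a weight which agrees with a probability product law outside `S` is a
mixture of functionals of fibres -/
lemma Lam_fibre {ν μ : ∀ i, (Om D → V i) → ℝ} (h1 : ∑ x, tens ν x = 1) {S : Finset ι}
    (hμ : ∀ i, i ∉ S → μ i = ν i) (g : Om D → (∀ i, V i) → ℝ) :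
    Local.Lam (tens μ) g = ∑ s, tens μ s * Lam ν fun ω => res S (s ω) (g ω) := by
  classical
  set pw : (Om D → ∀ i, V i) → (Om D → ∀ i, V i) → (Om D → ∀ i, V i) :=
    fun s x ω => S.piecewise (s ω) (x ω) with hpw
  have hinv : Function.Involutive
      fun p : (Om D → ∀ i, V i) × (Om D → ∀ i, V i) => (pw p.1 p.2, pw p.2 p.1) := by
    intro p
    refine Prod.ext ?_ ?_ <;> funext ω i <;> by_cases hi : i ∈ S <;> simp [hpw, hi]
  have hw : ∀ s x, tens μ (pw s x) * tens ν (pw x s) = tens μ s * tens ν x := by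
    intro s x
    unfold tens
    rw [← prod_mul_distrib, ← prod_mul_distrib]
    refine prod_congr rfl fun i _ => ?_
    by_cases hi : i ∈ S
    · simp [hpw, hi]
    · simp [hpw, hi, hμ i hi, mul_comm]
  calc Local.Lam (tens μ) g
      = ∑ p : (Om D → ∀ i, V i) × (Om D → ∀ i, V i),
          tens μ p.1 * tens ν p.2 * ∏ c, g c (p.1 c) := by
        rw [Fintype.sum_prod_type]
        refine sum_congr rfl fun u _ => ?_
        simp only
        rw [← sum_mul, ← mul_sum, h1, mul_one]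
    _ = ∑ p : (Om D → ∀ i, V i) × (Om D → ∀ i, V i),
          tens μ p.1 * tens ν p.2 * ∏ c, g c (pw p.1 p.2 c) := by
        refine (Fintype.sum_equiv hinv.toPerm _ _ fun p => ?_).symm
        simp only [Function.Involutive.coe_toPerm, hw]
    _ = _ := by
        rw [Fintype.sum_prod_type]
        refine sum_congr rfl fun s _ => ?_
        unfold Lam Local.Lam
        rw [mul_sum]
        exact sum_congr rfl fun x _ => by rw [mul_assoc]; rfl

/-- the weight with `nf - ν` on `S` and `ν` outside -/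
def mix (ν nf : ∀ i, (Om D → V i) → ℝ) (S : Finset ι) (i : ι) : (Om D → V i) → ℝ :=
  if i ∈ S then fun y => nf i y - ν i y else ν i

lemma Lam_incl_excl (ν nf : ∀ i, (Om D → V i) → ℝ) (g : Om D → (∀ i, V i) → ℝ) :
    Local.Lam (tens nf) g = ∑ S : Finset ι, Local.Lam (tens (mix ν nf S)) g := by
  unfold Local.Lam
  rw [sum_comm]
  refine sum_congr rfl fun x _ => ?_
  rw [← sum_mul]
  congr 1
  have h : tens nf x = ∏ i, ((nf i (fun c => x c i) - ν i fun c => x c i) + ν i fun c => x c i) :=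
    prod_congr rfl fun i _ => by ring
  rw [h, prod_add, powerset_univ]
  refine sum_congr rfl fun S _ => ?_
  unfold tens
  rw [← prod_mul_prod_compl S, ← compl_eq_univ_sdiff]
  congr 1
  · exact prod_congr rfl fun i hi => by simp [mix, hi]
  · exact prod_congr rfl fun i hi => by simp [mix, mem_compl.1 hi]

section Law
variable [∀ i, AddCommGroup (V i)] {ν nf : ∀ i, (Om D → V i) → ℝ} {ρ β : ι → ℝ}
  {kap : ∀ i, V i → ℝ} {q : ι → ℕ}

lemma sum_abs_mix (hν : ∀ i, Law (ν i) (ρ i)) (hs : ∀ i, Split (ν i) (nf i) (kap i) (ρ i) (β i))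
    (hβ : ∀ i, β i ≤ 1 / (q i : ℝ) ^ 2) (S : Finset ι) :
    ∑ s, |tens (mix ν nf S) s| ≤ 1 / (qq q S : ℝ) ^ 2 := by
  have h1 : ∑ s, |tens (mix ν nf S) s| = ∏ i, ∑ y, |mix ν nf S i y| := by
    rw [← Local.sum_tens_prod fun i y => |mix ν nf S i y|]
    exact sum_congr rfl fun s _ => abs_prod _ _
  have h2 : (1 : ℝ) / (qq q S : ℝ) ^ 2 = ∏ i, if i ∈ S then 1 / (q i : ℝ) ^ 2 else 1 := by
    rw [prod_ite_mem, univ_inter, prod_div_distrib, prod_const_one, prod_pow]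
    simp [qq]
  rw [h1, h2]
  refine prod_le_prod (fun i _ => sum_nonneg fun _ _ => abs_nonneg _) fun i _ => ?_
  by_cases hi : i ∈ S
  · simp only [mix, hi, if_true]
    refine le_trans (le_of_eq ?_) ((hs i).fail_le.trans (hβ i))
    exact sum_congr rfl fun y _ => by
      rw [abs_sub_comm, abs_of_nonneg (sub_nonneg.2 ((hs i).nf_le y))]
  · simp only [mix, hi, if_false]
    refine le_of_eq ?_
    rw [← (hν i).sum_one]
    exact sum_congr rfl fun y _ => abs_of_nonneg ((hν i).nonneg y)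

/-- the failure terms -/
lemma abs_Lam_mix_le (hν : ∀ i, Law (ν i) (ρ i))
    (hs : ∀ i, Split (ν i) (nf i) (kap i) (ρ i) (β i)) (hβ : ∀ i, β i ≤ 1 / (q i : ℝ) ^ 2)
    (S : Finset ι) (g : Om D → (∀ i, V i) → ℝ) {A : ℝ} (hA : 0 ≤ A)
    (hg : ∀ s : Om D → ∀ i, V i, |Lam ν fun ω => res S (s ω) (g ω)| ≤ A) :
    |Local.Lam (tens (mix ν nf S)) g| ≤ 1 / (qq q S : ℝ) ^ 2 * A := by
  rw [Lam_fibre (Local.tens_sum_one hν) (S := S) (fun i hi => by simp [mix, hi]) g]
  refine (abs_sum_le_sum_abs _ _).trans ?_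
  refine le_trans ?_ (mul_le_mul_of_nonneg_right (sum_abs_mix hν hs hβ S) hA)
  rw [sum_mul]
  exact sum_le_sum fun s _ => by
    rw [abs_mul]; exact mul_le_mul_of_nonneg_left (hg s) (abs_nonneg _)

/-- raising the cut-off at one point -/
lemma raise (hq : ∀ i, 1 ≤ q i) {M Z E : ℝ} (hM : 1 ≤ M)
    (hT : ∀ (g : Om D → (∀ i, V i) → ℝ) (ω₀ : Om D), (∀ ω, Mod q M 1 (g ω)) → Mod q M Z (g ω₀) →
      |Lam ν g| ≤ E) (hZ : 1 ≤ Z)
    {f : Om D → (∀ i, V i) → ℝ} (hf : ∀ ω, Glob q (M ^ 2) (f ω)) (y y' : Om D → ℝ) (ω₀ : Om D)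
    (hy : ∀ ω, ω ≠ ω₀ → y ω = y' ω) (hy' : ∀ ω, y' ω ≤ M) (h0 : Z ≤ y ω₀) (h1 : y ω₀ ≤ y' ω₀) :
    |(Lam ν fun ω => proj (low q ∅ (y' ω)) (f ω)) - Lam ν fun ω => proj (low q ∅ (y ω)) (f ω)|
      ≤ E := by
  set g : Om D → (∀ i, V i) → ℝ := fun ω => proj (low q ∅ (y' ω)) (f ω) with hg
  set u := proj (low q ∅ (y ω₀)) (f ω₀) with hu
  set v := proj (low q ∅ (y' ω₀) \ low q ∅ (y ω₀)) (f ω₀) with hv
  have e1 : g = Function.update g ω₀ fun t => u t + v t := by
    funext ω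
    by_cases h : ω = ω₀
    · subst h
      rw [Function.update_self]
      funext t
      exact ES.proj_sdiff (ES.low_mono q ∅ h1) _ t
    · rw [Function.update_of_ne h]
  have e2 : (fun ω => proj (low q ∅ (y ω)) (f ω)) = Function.update g ω₀ u := by
    funext ω
    by_cases h : ω = ω₀
    · subst h; rw [Function.update_self]
    · rw [Function.update_of_ne h, hy ω h]
  have e3 : Lam ν g = Lam ν (Function.update g ω₀ u) + Lam ν (Function.update g ω₀ v) := by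
    conv_lhs => rw [e1]
    exact Local.Lam_update_add _ _ _ _ _
  have hq0 : (qq q (∅ : Finset ι) : ℝ) ≤ M := by simpa using hM
  have hv' : Mod q M Z v := by
    have := mod_sdiff (S := ∅) (W := ∅) (hf ω₀) Subset.rfl hq0 (hy' ω₀) h0 0
    rwa [ES.res_empty] at this
  rw [e2, e3, add_sub_cancel_left]
  refine hT _ ω₀ (fun ω => ?_) (by rw [Function.update_self]; exact hv')
  by_cases h : ω = ω₀
  · subst h; rw [Function.update_self]; exact hv'.mono hZ
  · rw [Function.update_of_ne h]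
    have := mod_low (S := ∅) (W := ∅) hq (hf ω) Subset.rfl hq0 (hy' ω) 0
    rwa [ES.res_empty] at this

/-- one of the terms of the restriction of a truncated model -/
lemma term_le (hD : 1 ≤ D) (hν : ∀ i, Law (ν i) (ρ i)) (hq : ∀ i, 1 ≤ q i) {M Z Y R y : ℝ}
    (hZ : 1 ≤ Z) (hY : 0 ≤ Y) (hR : 0 ≤ R) (hy1 : Z ^ 2 ≤ y) (hy2 : y ≤ M)
    (hT1 : ∀ g : Om D → (∀ i, V i) → ℝ, (∀ ω, Mod q M 1 (g ω)) → |Lam ν g| ≤ Y * √Z)
    (hT2 : ∀ (g : Om D → (∀ i, V i) → ℝ) (ω₀ : Om D), (∀ ω, Mod q M 1 (g ω)) → Mod q M Z (g ω₀) →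
      |Lam ν g| ≤ Y)
    {f : (∀ i, V i) → ℝ} (hf : Glob q (M ^ 2) f) {S U W : Finset ι} (hU : U ⊆ S) (hW : W ⊆ U)
    (s : ∀ i, V i) (hRS : Y * √(qq q S) ≤ R ^ 6 ^ D)
    (h0 : (qq q S : ℝ) ≤ Z →
      (Lam ν fun _ => proj (low q S (Z ^ 2)) (res W s f)) ≤ Y * √(qq q S)) :
    (Lam ν fun _ => proj (low q S (y / qq q U)) (res W s f)) ≤ (3 * R) ^ 6 ^ D := by
  have hqU : (1 : ℝ) ≤ qq q U := by exact_mod_cast ES.one_le_qq hq U
  have hqS : (1 : ℝ) ≤ qq q S := by exact_mod_cast ES.one_le_qq hq S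
  have hUS : (qq q U : ℝ) ≤ qq q S := by exact_mod_cast ES.qq_mono hq hU
  have hWU : (qq q W : ℝ) ≤ qq q U := by exact_mod_cast ES.qq_mono hq hW
  have hZ2 : Z ≤ Z ^ 2 := by nlinarith
  have hy0 : 0 ≤ y := by linarith
  have hyM : y / qq q U ≤ M := (div_le_self hy0 hqU).trans hy2
  have h3 : R ^ 6 ^ D ≤ (3 * R) ^ 6 ^ D := pow_le_pow_left₀ hR (by linarith) _
  by_cases hS : (qq q S : ℝ) ≤ Z
  · have hWM : (qq q W : ℝ) ≤ M := by linarith
    have hyZ : Z ≤ y / qq q U := by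
      rw [le_div_iff₀ (by linarith)]; nlinarith
    have hYR : Y ≤ R ^ 6 ^ D := by
      refine le_trans ?_ hRS
      exact le_mul_of_one_le_right hY (Real.one_le_sqrt.2 hqS)
    have ha := mod_sdiff (y := y / qq q U) hf (hW.trans hU) hWM hyM hZ2 s
    have hb := mod_sdiff (y := Z ^ 2) hf (hW.trans hU) hWM (hy1.trans hy2) hyZ s
    have ha' := (le_abs_self _).trans ((hT2 _ (ptA D) (fun _ => ha.mono hZ) ha).trans hYR)
    have hb' := (le_abs_self _).trans ((hT2 _ (ptA D) (fun _ => hb.mono hZ) hb).trans hYR)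
    have := (Local.tens_rp hν).Lam_sum_le hD (univ : Finset (Fin 3)) ![1, 1, -1]
      ![proj (low q S (Z ^ 2)) (res W s f),
        proj (low q S (y / qq q U) \ low q S (Z ^ 2)) (res W s f),
        proj (low q S (Z ^ 2) \ low q S (y / qq q U)) (res W s f)] (fun _ => R) (fun _ _ => hR)
      (by
        intro j _
        fin_cases j
        · exact (h0 hS).trans hRS
        · exact ha'
        · exact hb')
    refine le_trans (le_of_eq ?_) (this.trans (le_of_eq ?_))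
    · refine congrArg (Local.Lam (tens ν)) ?_
      funext _ v
      rw [proj_eq_add_sub _ (low q S (Z ^ 2))]
      simp [Fin.sum_univ_three]
      ring
    · congr 1
      simp [Fin.sum_univ_three]
      ring
  · have hm : Mod q M 1 (proj (low q S (y / qq q U)) (res W s f)) := by
      by_cases hy : (qq q U : ℝ) ≤ y
      · exact mod_low hq hf (hW.trans hU) (by linarith) hyM s
      · have he : low q S (y / qq q U) = ∅ := by
          refine eq_empty_of_forall_notMem fun T hT => ?_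
          have h1 : (1 : ℝ) ≤ qq q T := by exact_mod_cast ES.one_le_qq hq T
          have h2 := (le_div_iff₀ (by linarith)).1 (h1.trans (mem_low.1 hT).2)
          exact hy (by linarith)
        refine ⟨f, ∅, s, ∅, hf, by simp; linarith, by simp, ?_⟩
        rw [he]; funext x; simp [proj]
    refine (le_abs_self _).trans ((hT1 _ fun _ => hm).trans (le_trans ?_ (hRS.trans h3)))
    exact mul_le_mul_of_nonneg_left (Real.sqrt_le_sqrt (le_of_not_ge hS)) hY

/-- the functional of the fibres of the raised tuple -/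
lemma fibre_le (hD : 1 ≤ D) (hν : ∀ i, Law (ν i) (ρ i)) (hq : ∀ i, 1 ≤ q i) {M Z Y : ℝ}
    (hZ : 1 ≤ Z) (hY : 0 ≤ Y) {y : Om D → ℝ} (hy1 : ∀ ω, Z ^ 2 ≤ y ω) (hy2 : ∀ ω, y ω ≤ M)
    (hT1 : ∀ g : Om D → (∀ i, V i) → ℝ, (∀ ω, Mod q M 1 (g ω)) → |Lam ν g| ≤ Y * √Z)
    (hT2 : ∀ (g : Om D → (∀ i, V i) → ℝ) (ω₀ : Om D), (∀ ω, Mod q M 1 (g ω)) → Mod q M Z (g ω₀) →
      |Lam ν g| ≤ Y)
    {f : Om D → (∀ i, V i) → ℝ} (hf : ∀ ω, Glob q (M ^ 2) (f ω)) {S : Finset ι} (hS : S.Nonempty)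
    (h0 : ∀ (ω : Om D) (W : Finset ι) (s : ∀ i, V i), W ⊆ S → (qq q S : ℝ) ≤ Z →
      (Lam ν fun _ => proj (low q S (Z ^ 2)) (res W s (f ω))) ≤ Y * √(qq q S))
    (s : Om D → ∀ i, V i) :
    |Lam ν fun ω => res S (s ω) (proj (low q ∅ (y ω)) (f ω))| ≤
      ((12 : ℝ) ^ 6 ^ D) ^ S.card * (Y * √(qq q S)) := by
  set R : ℝ := (Y * √(qq q S)) ^ ((6 ^ D : ℕ) : ℝ)⁻¹ with hR
  have hR0 : 0 ≤ R := Real.rpow_nonneg (by positivity) _
  have hRr : R ^ 6 ^ D = Y * √(qq q S) := Real.rpow_inv_natCast_pow (by positivity) (by positivity)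
  set J : Finset (Σ _ : Finset ι, Finset ι) := S.powerset.sigma fun U => U.powerset with hJ
  have e : (fun ω => res S (s ω) (proj (low q ∅ (y ω)) (f ω))) = fun ω v => ∑ j ∈ J,
      (-1 : ℝ) ^ (j.1 \ j.2).card * proj (low q S (y ω / qq q j.1)) (res j.2 (s ω) (f ω)) v := by
    funext ω v
    rw [ES.res_proj_low hq, hJ, sum_sigma]
  have hc : (J.card : ℝ) ≤ 4 ^ S.card := by
    have h1 : J.card ≤ S.powerset.card * 2 ^ S.card := by
      rw [hJ, card_sigma, ← smul_eq_mul]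
      refine sum_le_card_nsmul _ _ _ fun U hU => ?_
      rw [card_powerset]
      exact Nat.pow_le_pow_right (by norm_num) (card_le_card (mem_powerset.1 hU))
    rw [card_powerset, ← mul_pow] at h1
    exact_mod_cast h1
  rw [e]
  refine ((Local.tens_rp hν).abs_Lam_sum_le hD (fun _ => J)
    (fun _ j => (-1 : ℝ) ^ (j.1 \ j.2).card)
    (fun ω j => proj (low q S (y ω / qq q j.1)) (res j.2 (s ω) (f ω))) (fun _ _ => 3 * R)
    (fun _ _ _ => by positivity) fun ω j hj => ?_).trans ?_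
  · obtain ⟨h1, h2⟩ := mem_sigma.1 hj
    exact term_le hD hν hq hZ hY hR0 (hy1 ω) (hy2 ω) hT1 hT2 (hf ω) (mem_powerset.1 h1)
      (mem_powerset.1 h2) (s ω) hRr.ge
      (h0 ω _ _ ((mem_powerset.1 h2).trans (mem_powerset.1 h1)))
  · simp only [abs_pow, abs_neg, abs_one, one_pow, one_mul, sum_const, nsmul_eq_mul, prod_const,
      card_univ, Local.card_Om]
    rw [← hRr, ← pow_mul, mul_comm (6 ^ D), pow_mul, ← mul_pow]
    refine pow_le_pow_left₀ (by positivity) ?_ _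
    have h3 : (3 : ℝ) ≤ 3 ^ S.card := le_self_pow₀ (by norm_num) hS.card_pos.ne'
    have h12 : (12 : ℝ) ^ S.card = 4 ^ S.card * 3 ^ S.card := by rw [← mul_pow]; norm_num
    rw [h12, mul_assoc]
    gcongr

/-- the step without asymptotics -/
theorem core (hD : 1 ≤ D) (hν : ∀ i, Law (ν i) (ρ i))
    (hs : ∀ i, Split (ν i) (nf i) (kap i) (ρ i) (β i)) (hβ : ∀ i, β i ≤ 1 / (q i : ℝ) ^ 2)
    (hq : ∀ i, 1 ≤ q i) {M Z Y : ℝ} (hZ : 1 ≤ Z) (hY : 0 ≤ Y) (hM : Z ^ 2 ≤ M)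
    (hT1 : ∀ g : Om D → (∀ i, V i) → ℝ, (∀ ω, Mod q M 1 (g ω)) → |Lam ν g| ≤ Y * √Z)
    (hT2 : ∀ (g : Om D → (∀ i, V i) → ℝ) (ω₀ : Om D), (∀ ω, Mod q M 1 (g ω)) → Mod q M Z (g ω₀) →
      |Lam ν g| ≤ Y / 16)
    (hsum : ∑ S ∈ univ.erase (∅ : Finset ι),
      1 / (qq q S : ℝ) ^ 2 * (((12 : ℝ) ^ 6 ^ D) ^ S.card * √(qq q S)) ≤ 1 / 8)
    {f : Om D → (∀ i, V i) → ℝ} (hf : ∀ ω, Glob q (M ^ 2) (f ω))
    (h0 : ∀ (ω : Om D) (S W : Finset ι) (s : ∀ i, V i), S.Nonempty → W ⊆ S → (qq q S : ℝ) ≤ Z →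
      (Lam ν fun _ => proj (low q S (Z ^ 2)) (res W s (f ω))) ≤ Y * √(qq q S))
    (hnf : |Local.Lam (tens nf) fun ω => proj (low q ∅ (lev D (Z ^ 2) M ω)) (f ω)| ≤ Y / 8) :
    |Lam ν fun ω => proj (low q ∅ (Z ^ 2)) (f ω)| ≤ Y / 2 := by
  have hZ2 : Z ≤ Z ^ 2 := by nlinarith
  have hl1 : ∀ ω, Z ^ 2 ≤ lev D (Z ^ 2) M ω := fun ω => by unfold lev; split_ifs <;> linarith
  have hl2 : ∀ ω, lev D (Z ^ 2) M ω ≤ M := fun ω => by unfold lev; split_ifs <;> linarith
  set y₁ : Om D → ℝ := fun ω => if ω = ptA D then M else Z ^ 2 with hy₁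
  have r1 := raise hq (by linarith) hT2 hZ hf (fun _ => Z ^ 2) y₁ (ptA D)
    (fun ω h => by simp [hy₁, h]) (fun ω => by simp only [hy₁]; split_ifs <;> linarith) hZ2
    (by simp [hy₁, hM])
  have r2 := raise hq (by linarith) hT2 hZ hf y₁ (lev D (Z ^ 2) M) (ptB D)
    (fun ω h => by simp [hy₁, lev, h]) hl2 (by simp only [hy₁]; split_ifs <;> linarith)
    (by simp only [hy₁, lev, or_true, if_true]; split_ifs <;> linarith)
  set g : Om D → (∀ i, V i) → ℝ := fun ω => proj (low q ∅ (lev D (Z ^ 2) M ω)) (f ω) with hg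
  have e := Lam_incl_excl ν nf g
  rw [← add_sum_erase _ _ (mem_univ ∅)] at e
  have e0 : mix ν nf ∅ = ν := by funext i; simp [mix]
  rw [e0] at e
  have hb : |∑ S ∈ univ.erase (∅ : Finset ι), Local.Lam (tens (mix ν nf S)) g| ≤ Y / 8 := by
    refine (abs_sum_le_sum_abs _ _).trans ?_
    refine le_trans ?_ ((mul_le_mul_of_nonneg_left hsum hY).trans (le_of_eq (by ring)))
    rw [mul_sum]
    refine sum_le_sum fun S hS => ?_
    have hS' : S.Nonempty := nonempty_iff_ne_empty.2 (ne_of_mem_erase hS)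
    refine (abs_Lam_mix_le hν hs hβ S g (by positivity) fun s =>
      fibre_le hD hν hq hZ hY hl1 hl2 hT1 (fun g ω₀ h1 h2 => (hT2 g ω₀ h1 h2).trans (by linarith))
        hf hS' (fun ω W s => h0 ω S W s hS') s).trans (le_of_eq (by ring))
  rw [e] at hnf
  have := abs_le.1 r1
  have := abs_le.1 r2
  have := abs_le.1 hb
  have := abs_le.1 hnf
  rw [abs_le]
  constructor <;> linarith

end Law

end Crest.Agent.N41.Step
end

-- ▼ part N41/Step/Main
section

/-!
# Row 41, module B5: the step, choice of the constants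
-/

set_option autoImplicit false

namespace Crest.Agent.N41.Step

open Finset
open scoped BigOperators
open Local (Om ptA ptB tens RP)
open ES (proj qq res mem_low)

/-- the sum over the failure sets is small -/
lemma exists_sum_small (c : ℝ) (hc : 1 ≤ c) : ∃ p : ℕ, ∀ (ι : Type) [Fintype ι] [DecidableEq ι]
    (q : ι → ℕ), (∀ i, p ≤ q i) → Function.Injective (qq q) →
    ∑ S ∈ univ.erase (∅ : Finset ι), 1 / (qq q S : ℝ) ^ 2 * (c ^ S.card * √(qq q S)) ≤ 1 / 8 := by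
  have hsum : Summable fun n : ℕ => (n : ℝ) ^ (-(5 / 4) : ℝ) :=
    Real.summable_nat_rpow.2 (by norm_num)
  obtain ⟨s, hs⟩ := hsum.vanishing (e := Set.Iio (1 / 8)) (Iio_mem_nhds (by norm_num))
  refine ⟨max (s.sup id + 1) ⌈c ^ 4⌉₊, fun ι _ _ q hq hinj => ?_⟩
  have hq1 : ∀ i, 1 ≤ q i := fun i => le_trans (by omega) ((le_max_left _ _).trans (hq i))
  have hd : Disjoint ((univ.erase (∅ : Finset ι)).image (qq q)) s := by
    refine disjoint_left.2 fun n hn hns => ?_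
    obtain ⟨S, hS, rfl⟩ := mem_image.1 hn
    obtain ⟨i, hi⟩ := nonempty_iff_ne_empty.2 (ne_of_mem_erase hS)
    have h1 : q i ≤ qq q S := Nat.le_of_dvd (ES.one_le_qq hq1 S) (ES.dvd_qq q hi)
    have h2 : qq q S ≤ s.sup id := le_sup (f := id) hns
    have h3 := (le_max_left _ _).trans (hq i)
    omega
  have h := hs _ hd
  rw [sum_image hinj.injOn] at h
  refine le_trans (sum_le_sum fun S _ => ?_) (le_of_lt h)
  have hn : (0 : ℝ) < qq q S := by exact_mod_cast ES.one_le_qq hq1 S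
  have h1 : (c ^ S.card) ^ 4 ≤ qq q S := by
    rw [← pow_mul, mul_comm, pow_mul]
    have h2 : (⌈c ^ 4⌉₊ : ℝ) ^ S.card ≤ qq q S := by
      exact_mod_cast ES.pow_card_le_qq (fun i => (le_max_right _ _).trans (hq i)) S
    exact (pow_le_pow_left₀ (by positivity) (Nat.le_ceil _) _).trans h2
  have h2 : c ^ S.card ≤ (qq q S : ℝ) ^ (1 / 4 : ℝ) := by
    rw [one_div, Real.le_rpow_inv_iff_of_pos (by positivity) hn.le (by norm_num)]
    exact_mod_cast h1
  have h3 : (qq q S : ℝ) ^ (-(5 / 4) : ℝ) =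
      1 / (qq q S : ℝ) ^ 2 * ((qq q S : ℝ) ^ (1 / 4 : ℝ) * √(qq q S)) := by
    rw [Real.sqrt_eq_rpow, ← Real.rpow_add hn, one_div ((qq q S : ℝ) ^ 2), ← Real.rpow_natCast,
      ← Real.rpow_neg hn.le, ← Real.rpow_add hn]
    norm_num
  rw [h3]
  gcongr

/-- the constant of the moment bound is a small power -/
lemma exists_pow_small (C θ : ℝ) (A : ℕ) (hC : 1 ≤ C) (hθ : 0 < θ) : ∃ (p : ℕ) (Z₀ : ℝ), 2 ≤ p ∧
    ∀ Z : ℝ, Z₀ ≤ Z → 1 ≤ Z → C ^ (Nat.log p ⌊Z ^ A⌋₊ + 1) ≤ Z ^ θ := by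
  obtain ⟨n, hn⟩ := exists_nat_gt (2 * A / θ)
  have hn0 : (0 : ℝ) < n := lt_of_le_of_lt (by positivity) hn
  refine ⟨max 2 ⌈C ^ n⌉₊, C ^ (2 / θ), le_max_left _ _, fun Z hZ hZ1 => ?_⟩
  set p := max 2 ⌈C ^ n⌉₊ with hp
  set d := Nat.log p ⌊Z ^ A⌋₊ with hd
  have hZA : (1 : ℝ) ≤ Z ^ A := one_le_pow₀ hZ1
  have h1 : (p : ℝ) ^ d ≤ Z ^ A := by
    have h : p ^ d ≤ ⌊Z ^ A⌋₊ := Nat.pow_log_le_self p (Nat.floor_pos.2 hZA).ne'
    exact le_trans (by exact_mod_cast h) (Nat.floor_le (by positivity))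
  have h2 : C ^ n ≤ p := (Nat.le_ceil _).trans (by exact_mod_cast le_max_right _ _)
  have h3 : (C ^ d) ^ n ≤ Z ^ A := by
    rw [← pow_mul, mul_comm, pow_mul]
    exact (pow_le_pow_left₀ (by positivity) h2 _).trans h1
  have h4 : C ^ d ≤ Z ^ (θ / 2) := by
    have h5 : Z ^ A ≤ (Z ^ (θ / 2)) ^ n := by
      rw [← Real.rpow_natCast (Z ^ (θ / 2)), ← Real.rpow_mul (by linarith), ← Real.rpow_natCast]
      refine Real.rpow_le_rpow_of_exponent_le hZ1 ?_
      rw [div_lt_iff₀ hθ] at hn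
      linarith
    exact (pow_le_pow_iff_left₀ (by positivity) (by positivity) (by exact_mod_cast hn0.ne')).1
      (h3.trans h5)
  have h5 : C ≤ Z ^ (θ / 2) := by
    have h6 := Real.rpow_le_rpow (by positivity) hZ (by positivity : 0 ≤ θ / 2)
    rwa [← Real.rpow_mul (by linarith), show 2 / θ * (θ / 2) = 1 by field_simp,
      Real.rpow_one] at h6
  calc C ^ (d + 1) = C ^ d * C := pow_succ _ _
    _ ≤ Z ^ (θ / 2) * Z ^ (θ / 2) := by gcongr
    _ = Z ^ θ := by rw [← Real.rpow_add (by linarith)]; ring_nf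

/-- **Module B5** from the moment bound, the tail bound and the bound of the `nf` term -/
theorem step_of (hc : HCStmt) (tl : TailStmt) (hnf : NFStmt) : StepStmt := by
  intro D κ hD hκ
  obtain ⟨C, hC, hHC⟩ := hc (6 ^ D)
  set m : ℝ := min κ (1 / 2) with hm
  have hm0 : 0 < m := lt_min hκ (by norm_num)
  have hm1 : m ≤ κ := min_le_left _ _
  have hm2 : m ≤ 1 / 2 := min_le_right _ _
  obtain ⟨K, hK⟩ := exists_nat_gt ((20 * 6 ^ D + 4) / κ)
  have hK1 : 1 ≤ K := by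
    have : (0 : ℝ) < K := lt_of_le_of_lt (by positivity) hK
    exact_mod_cast this
  obtain ⟨p₁, hp₁⟩ := exists_sum_small (12 ^ 6 ^ D) (one_le_pow₀ (by norm_num))
  obtain ⟨p₂, Z₁, hp₂, hZ₁⟩ := exists_pow_small C (m / 4) (K + 2 * 6 ^ D) hC (by positivity)
  refine ⟨K, (K + 2 * 6 ^ D) * 2, m / 2, (max p₁ p₂ : ℕ), max 2 (max Z₁ (16 ^ (4 / m))), hK1,
    by positivity, le_max_left _ _, ?_⟩
  intro ι _ _ V _ _ _ q ρ β ν nf kap Z hZ hq hinj hcard hν hρ
  have hZ2 : 2 ≤ Z := (le_max_left _ _).trans hZ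
  have hZ1 : 1 ≤ Z := by linarith
  have hZ0 : 0 < Z := by linarith
  have hqp : ∀ i, max p₁ p₂ ≤ q i := fun i => by exact_mod_cast hq i
  have hq2 : ∀ i, p₂ ≤ q i := fun i => (le_max_right _ _).trans (hqp i)
  have hq1 : ∀ i, 1 ≤ q i := fun i => le_trans (by omega) (hq2 i)
  set M : ℝ := Z ^ (K + 2 * 6 ^ D) with hM
  have hr : 1 ≤ 6 ^ D := Nat.one_le_pow _ _ (by norm_num)
  have hM2 : Z ^ 2 ≤ M := pow_le_pow_right₀ hZ1 (by omega)
  have hM1 : 1 ≤ M := one_le_pow₀ hZ1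
  have hB := hZ₁ Z ((le_max_left _ _).trans ((le_max_right _ _).trans hZ)) hZ1
  have h16 : 16 ≤ Z ^ (m / 4) := by
    have h6 := Real.rpow_le_rpow (by positivity)
      ((le_max_right _ _).trans ((le_max_right _ _).trans hZ)) (by positivity : 0 ≤ m / 4)
    rwa [← Real.rpow_mul (by norm_num), show 4 / m * (m / 4) = 1 by field_simp,
      Real.rpow_one] at h6
  have hT : ∀ (g : Om D → (∀ i, V i) → ℝ) (ω₀ : Om D) (y : ℝ), 1 ≤ y → (∀ ω, Mod q M 1 (g ω)) →
      Mod q M y (g ω₀) → |Lam ν g| ≤ y ^ (-κ) * Z ^ (m / 4) := by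
    intro g ω₀ y hy h1 h2
    obtain ⟨f, U, s, F, -, -, hF, hg⟩ := h2
    refine tl D ι V ν ρ hD hν ω₀ g _ F _ _ hg (by positivity) (fun T hT => ?_) (by linarith)
      fun ω => ?_
    · rw [prod_pow]
      refine pow_le_pow_left₀ (prod_nonneg fun i _ => (hρ i).1) ?_ _
      refine (prod_le_prod (fun i _ => (hρ i).1) fun i _ => (hρ i).2).trans ?_
      rw [Real.finsetProd_rpow _ _ fun i _ => by positivity]
      refine Real.rpow_le_rpow_of_nonpos (by linarith) ?_ (by linarith)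
      simpa [qq] using (hF T hT).2.1
    · obtain ⟨f, U, s, F, hf, hU, hF, hg⟩ := h1 ω
      rw [hg]
      refine (hHC ι V q M f U s F (Nat.log p₂ ⌊M⌋₊) hq1 hf hU fun T hT =>
        ⟨(hF T hT).1, (hF T hT).2.2, ?_⟩).trans hB
      exact Nat.le_log_of_pow_le (by omega)
        ((ES.pow_card_le_qq hq2 T).trans (Nat.le_floor (hF T hT).2.2))
  have hT1 : ∀ g : Om D → (∀ i, V i) → ℝ, (∀ ω, Mod q M 1 (g ω)) → |Lam ν g| ≤ Z ^ (m / 4) := by
    intro g h
    simpa using hT g (ptA D) 1 le_rfl h (h _)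
  refine ⟨fun f hf => ?_, fun hs hβ f Y hf hY h0 hp => ?_⟩
  · rw [pow_mul] at hf
    have h := mod_low (S := ∅) (W := ∅) hq1 hf Subset.rfl (by simpa using hM1) hM2 0
    rw [ES.res_empty] at h
    refine (le_abs_self _).trans ((hT1 _ fun _ => h).trans (le_of_eq ?_))
    congr 1; ring
  · have hf' : ∀ ω, Glob q (M ^ 2) (f ω) := fun ω => by have := hf ω; rwa [pow_mul] at this
    have hY0 : 0 ≤ Y := le_trans (by positivity) hY
    refine core hD hν hs hβ hq1 hZ1 hY0 hM2 (fun g h => (hT1 g h).trans ?_)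
      (fun g ω₀ h1 h2 => (hT g ω₀ Z hZ1 h1 h2).trans ?_)
      (hp₁ ι q (fun i => (le_max_left _ _).trans (hqp i)) hinj) hf' h0 ?_
    · refine le_trans ?_ (mul_le_mul_of_nonneg_right hY (Real.sqrt_nonneg _))
      rw [Real.sqrt_eq_rpow, ← Real.rpow_add hZ0]
      exact Real.rpow_le_rpow_of_exponent_le hZ1 (by linarith)
    · rw [le_div_iff₀ (by norm_num)]
      refine le_trans ?_ hY
      calc Z ^ (-κ) * Z ^ (m / 4) * 16 ≤ Z ^ (-κ) * Z ^ (m / 4) * Z ^ (m / 4) := by gcongr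
        _ = Z ^ (-κ + m / 4 + m / 4) := by rw [Real.rpow_add hZ0, Real.rpow_add hZ0]
        _ ≤ _ := Real.rpow_le_rpow_of_exponent_le hZ1 (by linarith)
    · refine (hnf D K κ hD hκ ι V q ρ β ν nf kap Z f hZ2 (fun i => hp₂.trans (hq2 i)) hinj hcard hν
        hρ hs (fun ω => (hf' ω).mono (by nlinarith)) hp).trans ?_
      rw [le_div_iff₀ (by norm_num)]
      refine le_trans ?_ hY
      have h8 : (8 : ℝ) ≤ Z ^ (3 : ℝ) := by
        have := pow_le_pow_left₀ (by norm_num) hZ2 3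
        rw [← Real.rpow_natCast Z] at this
        norm_num at this ⊢
        exact this
      rw [div_lt_iff₀ hκ] at hK
      calc Z ^ (20 * 6 ^ D) * (Z ^ K) ^ (-κ) * 8
          ≤ Z ^ (20 * 6 ^ D) * (Z ^ K) ^ (-κ) * Z ^ (3 : ℝ) := by gcongr
        _ = Z ^ (((20 * 6 ^ D : ℕ) : ℝ) + K * (-κ) + 3) := by
            rw [Real.rpow_add hZ0, Real.rpow_add hZ0, Real.rpow_natCast, Real.rpow_mul hZ0.le,
              Real.rpow_natCast]
        _ ≤ _ := by
            refine Real.rpow_le_rpow_of_exponent_le hZ1 ?_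
            push_cast
            linarith

end Crest.Agent.N41.Step
end

-- ▼ part N41/Poly/Basic
section

/-!
# Row 41, module POLY, part 1 (helper6): refinement of intersective polynomials

`Inter pr g r d` : `g` has a root `n` modulo every `q`, with `r + d n` coprime to `q` if `pr`.
`lin s q = C s + C q * X`.
-/

set_option autoImplicit false

open Polynomial

namespace Crest.Agent.N41.Poly

/-- the linear polynomial `s + q X` -/
noncomputable def lin (s q : ℤ) : ℤ[X] := C s + C q * X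

@[simp] lemma eval_lin (s q n : ℤ) : (lin s q).eval n = s + q * n := by simp [lin]

lemma lin_comp_lin (r d s q : ℤ) : (lin r d).comp (lin s q) = lin (r + d * s) (d * q) := by
  simp only [lin, add_comp, mul_comp, C_comp, X_comp, C_add, C_mul]
  ring

/-- `g` has a root modulo every `q`; in the prime case `r + d n` is coprime to `q` -/
def Inter (pr : Prop) (g : ℤ[X]) (r d : ℤ) : Prop :=
  ∀ q : ℕ, 1 ≤ q → ∃ n : ℤ, (q : ℤ) ∣ g.eval n ∧ (pr → IsCoprime (r + d * n) (q : ℤ))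

lemma comp_lin_eq (g : ℤ[X]) (s q : ℤ) :
    g.comp (lin s q) = (taylor s g).comp (C q * X) := by
  rw [taylor_apply, comp_assoc]
  congr 1
  simp [lin, add_comm]

lemma coeff_comp_lin (g : ℤ[X]) (s q : ℤ) (i : ℕ) :
    (g.comp (lin s q)).coeff i = (taylor s g).coeff i * q ^ i := by
  rw [comp_lin_eq, comp_C_mul_X_coeff]

lemma eval_comp_lin (g : ℤ[X]) (s q n : ℤ) :
    (g.comp (lin s q)).eval n = g.eval (s + q * n) := by
  simp [eval_comp]

lemma natDegree_comp_lin (g : ℤ[X]) (s : ℤ) {q : ℤ} (hq : q ≠ 0) :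
    (g.comp (lin s q)).natDegree = g.natDegree := by
  rw [natDegree_comp]
  have : (lin s q).natDegree = 1 := by
    unfold lin
    rw [add_comm]
    exact natDegree_linear hq
  rw [this, mul_one]

lemma leadingCoeff_comp_lin (g : ℤ[X]) (s : ℤ) {q : ℤ} (hq : q ≠ 0) :
    (g.comp (lin s q)).leadingCoeff = g.leadingCoeff * q ^ g.natDegree := by
  rw [leadingCoeff, natDegree_comp_lin g s hq, coeff_comp_lin, ← natDegree_taylor g s,
    ← leadingCoeff, leadingCoeff_taylor, natDegree_taylor]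

lemma isPrimitive_taylor {g : ℤ[X]} (hg : g.IsPrimitive) (s : ℤ) :
    (taylor s g).IsPrimitive := by
  intro c hc
  apply hg
  obtain ⟨u, hu⟩ := hc
  refine ⟨taylor (-s) u, ?_⟩
  have : taylor (-s) (taylor s g) = g := by rw [taylor_taylor]; simp
  rw [← this, hu, taylor_mul, taylor_C]

/-- a common divisor of the coefficients of `g (s + q X)` divides `q ^ k` -/
lemma dvd_pow_of_C_dvd {g : ℤ[X]} (hg : g.IsPrimitive) {k : ℕ} (hk : g.natDegree ≤ k)
    (s q c : ℤ) (hc : C c ∣ g.comp (lin s q)) : c ∣ q ^ k := by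
  have h1 : ∀ i, c ∣ (C (q ^ k) * taylor s g).coeff i := by
    intro i
    rw [coeff_C_mul]
    by_cases hi : i ≤ k
    · have h2 := (C_dvd_iff_dvd_coeff c _).1 hc i
      rw [coeff_comp_lin] at h2
      obtain ⟨j, rfl⟩ := Nat.exists_eq_add_of_le hi
      rw [pow_add, mul_assoc, mul_comm (q ^ j), ← mul_assoc, mul_comm (q ^ i)]
      exact Dvd.dvd.mul_right h2 _
    · have : (taylor s g).coeff i = 0 := by
        apply coeff_eq_zero_of_natDegree_lt
        rw [natDegree_taylor]; omega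
      rw [this, mul_zero]; exact dvd_zero _
  have h2 : C c ∣ C (q ^ k) * taylor s g := (C_dvd_iff_dvd_coeff c _).2 h1
  have h3 := dvd_content_iff_C_dvd.2 h2
  rw [content_C_mul, (isPrimitive_taylor hg s).content_eq_one, mul_one] at h3
  exact h3.trans (normalize_associated _).dvd

/-- pigeonhole: one residue class modulo `q` carries roots modulo everything -/
lemma exists_class {pr : Prop} {g : ℤ[X]} {r d : ℤ} (hg : Inter pr g r d) {q : ℕ} (hq : 1 ≤ q) :
    ∃ s : ℕ, s < q ∧ ∀ Q : ℕ, 1 ≤ Q → ∃ t : ℤ, (Q : ℤ) ∣ g.eval (s + q * t) ∧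
      (pr → IsCoprime (r + d * (s + q * t)) (Q : ℤ)) := by
  by_contra hcon
  push Not at hcon
  choose! Q hQ1 hQ using hcon
  obtain ⟨n, hn1, hn2⟩ := hg (∏ s ∈ Finset.range q, Q s)
    (Finset.one_le_prod' fun s hs => hQ1 s (Finset.mem_range.1 hs))
  have hq0 : (0 : ℤ) < q := by exact_mod_cast hq
  have h0 : 0 ≤ n % q := Int.emod_nonneg _ hq0.ne'
  have h1 : n % q < q := Int.emod_lt_of_pos _ hq0
  have hs : (n % q).toNat < q := by omega
  have hn : (((n % q).toNat : ℕ) : ℤ) + q * (n / q) = n := by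
    rw [Int.toNat_of_nonneg h0]; exact Int.emod_add_mul_ediv n q
  have hdvd : ((Q (n % q).toNat : ℕ) : ℤ) ∣ ((∏ s ∈ Finset.range q, Q s : ℕ) : ℤ) :=
    Int.natCast_dvd_natCast.2 (Finset.dvd_prod_of_mem _ (Finset.mem_range.2 hs))
  obtain ⟨h2, h3⟩ := hQ _ hs (n / q) (by rw [hn]; exact hdvd.trans hn1)
  apply h3
  rw [hn]
  exact (hn2 h2).of_isCoprime_of_dvd_right hdvd

/-- **Refinement.** -/
theorem refine {pr : Prop} {g : ℤ[X]} {r d : ℤ} {k : ℕ} (hp : g.IsPrimitive)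
    (hk : g.natDegree ≤ k) (hg : Inter pr g r d) {q : ℕ} (hq : 1 ≤ q) :
    ∃ (s lam : ℕ) (g' : ℤ[X]), s < q ∧ 0 < lam ∧ q ∣ lam ∧ lam ∣ q ^ k ∧
      C (lam : ℤ) * g' = g.comp (lin s q) ∧ g'.IsPrimitive ∧
      Inter pr g' (r + d * s) (d * q) := by
  obtain ⟨s, hs, hcl⟩ := exists_class hg hq
  have hq0 : (q : ℤ) ≠ 0 := by exact_mod_cast (by omega : q ≠ 0)
  set G := g.comp (lin s q) with hG
  have hc1 : G.content ∣ (q : ℤ) ^ k := dvd_pow_of_C_dvd hp hk s q _ (C_content_dvd G)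
  have hc0 : G.content ≠ 0 := by
    intro h
    rw [h, zero_dvd_iff] at hc1
    exact pow_ne_zero _ hq0 hc1
  have hnn : 0 ≤ G.content := by
    rw [← normalize_content]
    exact Int.nonneg_of_normalize_eq_self (by simp)
  have hcast : ((G.content.natAbs : ℕ) : ℤ) = G.content := Int.natAbs_of_nonneg hnn
  have hfac : C G.content * G.primPart = G := (eq_C_content_mul_primPart G).symm
  refine ⟨s, G.content.natAbs, G.primPart, hs, Int.natAbs_pos.2 hc0, ?_, ?_, ?_,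
    isPrimitive_primPart G, ?_⟩
  · rw [← Int.natCast_dvd_natCast, hcast, dvd_content_iff_C_dvd, C_dvd_iff_dvd_coeff]
    intro i
    rcases Nat.eq_zero_or_pos i with rfl | hi
    · obtain ⟨t, ht, -⟩ := hcl q hq
      rw [coeff_zero_eq_eval_zero, hG, eval_comp_lin, mul_zero, add_zero]
      have h2 : (q : ℤ) ∣ g.eval (s + q * t) - g.eval (s : ℤ) :=
        (Dvd.intro t (by ring) : (q : ℤ) ∣ (s + q * t) - s).trans (sub_dvd_eval_sub _ _ _)
      have := dvd_sub ht h2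
      simpa using this
    · rw [hG, coeff_comp_lin]
      exact Dvd.dvd.mul_left (dvd_pow_self _ hi.ne') _
  · rw [← Int.natCast_dvd_natCast, hcast]; exact_mod_cast hc1
  · rw [hcast, hfac]
  · intro Q hQ
    obtain ⟨t, ht1, ht2⟩ := hcl (Q * q ^ k) (Nat.one_le_iff_ne_zero.2 (by positivity))
    refine ⟨t, ?_, fun h => ?_⟩
    · rw [← eval_comp_lin, ← hG, ← hfac, eval_mul, eval_C] at ht1
      obtain ⟨u, hu⟩ := hc1
      have h3 : G.content * (Q * u) ∣ G.content * G.primPart.eval t := by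
        convert ht1 using 1
        push_cast
        rw [hu]; ring
      exact (Dvd.intro _ rfl).trans ((mul_dvd_mul_iff_left hc0).1 h3)
    · have h4 := ht2 h
      have h5 : r + d * (s : ℤ) + d * q * t = r + d * (s + q * t) := by ring
      rw [h5]
      push_cast at h4
      exact h4.of_mul_right_left


/-- in the prime case the progression is reduced -/
lemma Inter.coprime {pr : Prop} {g : ℤ[X]} {r : ℤ} {d : ℕ} (hg : Inter pr g r d) (hd : 1 ≤ d)
    (hp : pr) : IsCoprime r (d : ℤ) := by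
  obtain ⟨n, -, h⟩ := hg d hd
  exact (IsCoprime.add_mul_left_left_iff).1 (h hp)

/-- primitive with a root modulo `p`: some non-constant coefficient is prime to `p` -/
lemma exists_coeff_not_dvd {g : ℤ[X]} (hp : g.IsPrimitive) {p : ℕ} (hpp : p.Prime)
    (hr : ∃ n : ℤ, (p : ℤ) ∣ g.eval n) :
    ∃ i, 1 ≤ i ∧ i ≤ g.natDegree ∧ ¬ (p : ℤ) ∣ g.coeff i := by
  by_contra hcon
  push Not at hcon
  obtain ⟨n, hn⟩ := hr
  have h1 : ∀ i, 1 ≤ i → (p : ℤ) ∣ g.coeff i := by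
    intro i hi
    by_cases h : i ≤ g.natDegree
    · exact hcon i hi h
    · rw [coeff_eq_zero_of_natDegree_lt (by omega)]; exact dvd_zero _
  have h2 : (p : ℤ) ∣ g.coeff 0 := by
    rw [eval_eq_sum_range, Finset.sum_range_succ'] at hn
    simp only [pow_zero, mul_one] at hn
    exact (dvd_add_right (Finset.dvd_sum fun i _ => Dvd.dvd.mul_right (h1 _ (by omega)) _)).1 hn
  have h3 : C (p : ℤ) ∣ g := by
    rw [C_dvd_iff_dvd_coeff]
    intro i
    rcases Nat.eq_zero_or_pos i with rfl | hi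
    · exact h2
    · exact h1 i hi
  have h4 := hp _ h3
  rw [Int.isUnit_iff_natAbs_eq, Int.natAbs_natCast] at h4
  exact hpp.one_lt.ne' h4

end Crest.Agent.N41.Poly
end

-- ▼ part N41/Poly/Small
section

/-!
# Row 41, module POLY, part 2 (helper6): the small primes

For a primitive intersective `g` of degree at most `k` there is a class `n0 mod W1` on which
`(g (n0 + W1 X) - g n0) / W2` is a linear unit polynomial modulo every prime `l ≤ p0`.
-/

set_option autoImplicit false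

open Polynomial

namespace Crest.Agent.N41.Poly

/-- integer polynomials all of whose values are divisible by `c` -/
lemma exists_dvd_coeff_of_values (m : ℕ) : ∃ W : ℕ, 0 < W ∧ ∀ u : ℤ[X], u.natDegree ≤ m →
    ∀ c : ℤ, (∀ j : ℤ, c ∣ u.eval j) → ∀ i, c ∣ W * u.coeff i := by
  set V : Matrix (Fin (m + 1)) (Fin (m + 1)) ℤ := Matrix.vandermonde fun j => ((j : ℕ) : ℤ)
    with hV
  have hdet : V.det ≠ 0 := by
    rw [hV, Matrix.det_vandermonde_ne_zero_iff]
    intro a b hab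
    simpa [Fin.ext_iff] using hab
  refine ⟨V.det.natAbs, Int.natAbs_pos.2 hdet, fun u hu c hc i => ?_⟩
  by_cases hi : i ≤ m
  swap
  · rw [coeff_eq_zero_of_natDegree_lt (by omega), mul_zero]; exact dvd_zero _
  have h1 : V.mulVec (fun a : Fin (m + 1) => u.coeff a) =
      fun j : Fin (m + 1) => u.eval ((j : ℕ) : ℤ) := by
    funext j
    rw [eval_eq_sum_range' (n := m + 1) (by omega), Finset.sum_range]
    simp [hV, Matrix.mulVec, dotProduct, Matrix.vandermonde_apply, mul_comm]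
  have h2 : (V.adjugate.mulVec fun j : Fin (m + 1) => u.eval ((j : ℕ) : ℤ)) =
      V.det • fun a : Fin (m + 1) => u.coeff a := by
    rw [← h1, Matrix.mulVec_mulVec, Matrix.adjugate_mul, Matrix.smul_mulVec, Matrix.one_mulVec]
  have h3 := congrFun h2 ⟨i, by omega⟩
  simp only [Pi.smul_apply, smul_eq_mul] at h3
  have h4 : c ∣ V.det * u.coeff i := by
    rw [← h3]
    simp only [Matrix.mulVec, dotProduct]
    exact Finset.dvd_sum fun j _ => Dvd.dvd.mul_left (hc _) _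
  rw [Int.natCast_natAbs]
  rcases abs_choice V.det with h | h <;> rw [h]
  · exact h4
  · rw [neg_mul]; exact (dvd_neg).2 h4

/-- in the class of a root modulo `l` the derivative has bounded `l`-adic valuation somewhere -/
lemma exists_deriv_not_dvd (k : ℕ) : ∃ T : ℕ, 1 ≤ T ∧ ∀ g : ℤ[X], g.IsPrimitive →
    g.natDegree ≤ k → ∀ l : ℕ, l.Prime → ∀ n : ℤ, (l : ℤ) ∣ g.eval n →
      ∃ j : ℤ, ¬ (l : ℤ) ^ T ∣ (derivative g).eval (n + l * j) := by
  obtain ⟨W, hW, h⟩ := exists_dvd_coeff_of_values k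
  refine ⟨k + W * k.factorial, by have := Nat.factorial_pos k; nlinarith, ?_⟩
  intro g hg hk l hl n hn
  by_contra hcon
  push Not at hcon
  have hl0 : (l : ℤ) ≠ 0 := by exact_mod_cast hl.ne_zero
  have hdeg : ((derivative g).comp (lin n l)).natDegree ≤ k := by
    rw [natDegree_comp_lin _ _ hl0]
    exact (natDegree_derivative_le g).trans (by omega)
  have h1 := h _ hdeg ((l : ℤ) ^ (k + W * k.factorial)) (fun j => by
    rw [eval_comp_lin]; exact hcon j)
  obtain ⟨i, hi1, hi2, hi3⟩ := exists_coeff_not_dvd (isPrimitive_taylor hg n) hl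
    ⟨0, by rw [taylor_eval, zero_add]; exact hn⟩
  rw [natDegree_taylor] at hi2
  obtain ⟨i, rfl⟩ : ∃ j, i = j + 1 := ⟨i - 1, by omega⟩
  have h2 := h1 i
  have h3 : taylor n (derivative g) = derivative (taylor n g) := by
    rw [taylor_apply, taylor_apply, derivative_comp]; simp
  rw [coeff_comp_lin, h3, coeff_derivative] at h2
  have hcop : IsCoprime ((l : ℤ) ^ (k + W * k.factorial)) ((taylor n g).coeff (i + 1)) := by
    apply IsCoprime.pow_left
    exact (Prime.coprime_iff_not_dvd (Nat.prime_iff_prime_int.1 hl)).2 hi3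
  have h4 : (l : ℤ) ^ (k + W * k.factorial) ∣ (W * (i + 1) * (l : ℤ) ^ i : ℤ) := by
    apply hcop.dvd_of_dvd_mul_right
    have e1 : (W * (i + 1) * (l : ℤ) ^ i : ℤ) * (taylor n g).coeff (i + 1) =
        W * ((taylor n g).coeff (i + 1) * (i + 1) * (l : ℤ) ^ i) := by ring
    rw [e1]; exact h2
  have h5 : (W * (i + 1) * (l : ℤ) ^ i : ℤ) ∣ (l : ℤ) ^ k * (W * k.factorial : ℕ) := by
    rw [mul_comm ((l : ℤ) ^ k)]
    apply mul_dvd_mul
    · push_cast
      apply mul_dvd_mul_left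
      exact_mod_cast Nat.dvd_factorial (by omega) (by omega)
    · exact pow_dvd_pow _ (by omega)
  have h6 := h4.trans h5
  rw [pow_add, mul_dvd_mul_iff_left (pow_ne_zero _ hl0)] at h6
  have h7 : l ^ (W * k.factorial) ∣ W * k.factorial := by exact_mod_cast h6
  have h8 := Nat.le_of_dvd (by have := Nat.factorial_pos k; positivity) h7
  exact absurd h8 (not_le.2 (Nat.lt_pow_self hl.one_lt))

/-- `P` is a linear unit polynomial modulo `l` vanishing at `0` -/
def LinMod (P : ℤ[X]) (l : ℕ) : Prop :=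
  P.coeff 0 = 0 ∧ ¬ (l : ℤ) ∣ P.coeff 1 ∧ ∀ i, 2 ≤ i → (l : ℤ) ∣ P.coeff i


/-- **Small primes.** -/
theorem small_primes (k p0 : ℕ) : ∃ W1 : ℕ, 1 ≤ W1 ∧ (∀ l : ℕ, l.Prime → (l ∣ W1 ↔ l ≤ p0)) ∧
    ∀ (pr : Prop) (g : ℤ[X]) (r d : ℤ), g.IsPrimitive → g.natDegree ≤ k → Inter pr g r d →
      ∃ (n0 W2 : ℕ) (P : ℤ[X]), n0 < W1 ∧ W1 ∣ W2 ∧ W2 ∣ W1 ^ 2 ∧
        C (W2 : ℤ) * P = g.comp (lin n0 W1) - C (g.eval (n0 : ℤ)) ∧
        (∀ l : ℕ, l.Prime → l ≤ p0 → LinMod P l) ∧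
        (pr → IsCoprime (r + d * n0) (W1 : ℤ)) := by
  obtain ⟨T, hT, h⟩ := exists_deriv_not_dvd k
  set S := (Finset.range (p0 + 1)).filter Nat.Prime with hS
  have hmem : ∀ l, l ∈ S ↔ l.Prime ∧ l ≤ p0 := by
    intro l; simp only [hS, Finset.mem_filter, Finset.mem_range]; constructor <;>
      rintro ⟨h1, h2⟩ <;> constructor <;> first | assumption | omega
  set M := ∏ l ∈ S, l with hM
  have hM1 : 1 ≤ M := Finset.one_le_prod' fun l hl => ((hmem l).1 hl).1.one_le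
  have hlM : ∀ l : ℕ, l.Prime → (l ∣ M ↔ l ≤ p0) := by
    intro l hl
    rw [hM, Prime.dvd_finsetProd_iff hl.prime]
    constructor
    · rintro ⟨a, ha, hla⟩
      obtain ⟨h1, h2⟩ := (hmem a).1 ha
      rw [(Nat.prime_dvd_prime_iff_eq hl h1).1 hla]; exact h2
    · intro h; exact ⟨l, (hmem l).2 ⟨hl, h⟩, dvd_rfl⟩
  refine ⟨M ^ T, Nat.one_le_pow _ _ hM1, fun l hl => ?_, fun pr g r d hg hk hI => ?_⟩
  · rw [← hlM l hl]
    exact ⟨hl.dvd_of_dvd_pow, fun h => h.trans (dvd_pow_self _ (by omega))⟩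
  obtain ⟨n, hn1, hn2⟩ := hI M hM1
  have hroot : ∀ l ∈ S, (l : ℤ) ∣ g.eval n := fun l hl =>
    (Int.natCast_dvd_natCast.2 (Finset.dvd_prod_of_mem _ hl)).trans hn1
  choose! j hj using fun l (hl : l ∈ S) => h g hg hk l ((hmem l).1 hl).1 n (hroot l hl)
  obtain ⟨c, hc⟩ := Nat.chineseRemainderOfFinset
    (fun l : ℕ => ((n + l * j l) % ((l : ℤ) ^ T)).toNat) (fun l => l ^ T) S
    (fun l hl => pow_ne_zero _ ((hmem l).1 hl).1.ne_zero)
    (fun a ha b hb hab => Nat.Coprime.pow _ _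
      ((Nat.coprime_primes ((hmem a).1 ha).1 ((hmem b).1 hb).1).2 hab))
  have hW0 : 0 < M ^ T := by positivity
  set n0 := c % M ^ T with hn0
  have hcong : ∀ l ∈ S, (l : ℤ) ^ T ∣ (n0 : ℤ) - (n + l * j l) := by
    intro l hl
    have hl0 : (0 : ℤ) < (l : ℤ) ^ T := by
      have := ((hmem l).1 hl).1.pos; positivity
    have h1 : n0 ≡ c [MOD l ^ T] :=
      (Nat.mod_modEq c (M ^ T)).of_dvd (pow_dvd_pow_of_dvd (Finset.dvd_prod_of_mem _ hl) T)
    have h2 := (Int.natCast_modEq_iff.2 (h1.trans (hc l hl)))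
    rw [Int.toNat_of_nonneg (Int.emod_nonneg _ hl0.ne')] at h2
    push_cast at h2
    exact (h2.trans (Int.mod_modEq _ _)).symm.dvd
  set e : ℤ := (derivative g).eval (n0 : ℤ) with he
  have hnd : ∀ l ∈ S, ¬ (l : ℤ) ^ T ∣ e := by
    intro l hl hd
    apply hj l hl
    have := (hcong l hl).trans (sub_dvd_eval_sub _ _ (derivative g))
    have h2 := dvd_sub hd this
    simpa [he] using h2
  set γ : ℕ := Int.gcd e (M ^ T : ℕ) with hγ
  have hγ1 : (γ : ℤ) ∣ e := Int.gcd_dvd_left _ _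
  have hγ2 : (γ : ℤ) ∣ ((M ^ T : ℕ) : ℤ) := Int.gcd_dvd_right _ _
  have hγ2' : γ ∣ M ^ T := Int.natCast_dvd_natCast.1 hγ2
  have hγ0 : 0 < γ := Nat.pos_of_dvd_of_pos hγ2' hW0
  obtain ⟨e', he'⟩ := hγ1
  obtain ⟨w', hw'⟩ := hγ2'
  have hcop : IsCoprime e' (w' : ℤ) := by
    rw [Int.isCoprime_iff_gcd_eq_one]
    have h1 : Int.gcd ((γ : ℤ) * e') ((γ : ℤ) * w') = γ := by
      rw [← he', ← Nat.cast_mul, ← hw']
    rw [Int.gcd_mul_left, Int.natAbs_natCast] at h1
    exact (Nat.mul_eq_left hγ0.ne').1 h1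
  have hlw : ∀ l ∈ S, (l : ℤ) ∣ (w' : ℤ) := by
    intro l hl
    have hl' := ((hmem l).1 hl).1
    by_contra hno
    apply hnd l hl
    have h1 : l ^ T ∣ γ * w' := by
      rw [← hw']; exact pow_dvd_pow_of_dvd (Finset.dvd_prod_of_mem _ hl) T
    have h2 : Nat.Coprime (l ^ T) w' :=
      Nat.Coprime.pow_left _ ((Nat.Prime.coprime_iff_not_dvd hl').2
        fun h => hno (Int.natCast_dvd_natCast.2 h))
    have h3 : ((l ^ T : ℕ) : ℤ) ∣ (γ : ℤ) :=
      Int.natCast_dvd_natCast.2 (h2.dvd_of_dvd_mul_right h1)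
    rw [he']
    exact Dvd.dvd.mul_right (by exact_mod_cast h3) _
  set G := g.comp (lin n0 ((M ^ T : ℕ) : ℤ)) - C (g.eval (n0 : ℤ)) with hG
  have hG0 : G.coeff 0 = 0 := by
    rw [hG, coeff_sub, coeff_comp_lin, taylor_coeff_zero, coeff_C_zero]; ring
  have hG1 : G.coeff 1 = ((M ^ T * γ : ℕ) : ℤ) * e' := by
    rw [hG, coeff_sub, coeff_comp_lin, taylor_coeff_one, coeff_C_succ, ← he, he']
    push_cast; ring
  have hG2 : ∀ i, 2 ≤ i → ((M ^ T * γ : ℕ) : ℤ) * w' ∣ G.coeff i := by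
    intro i hi
    obtain ⟨i, rfl⟩ := Nat.exists_eq_add_of_le hi
    have : 2 + i = (i + 1) + 1 := by ring
    rw [hG, coeff_sub, coeff_comp_lin, this, coeff_C_succ, sub_zero, ← this, pow_add]
    have h2 : ((M ^ T * γ : ℕ) : ℤ) * w' = ((M ^ T : ℕ) : ℤ) ^ 2 := by
      rw [sq]; nth_rewrite 3 [hw']; push_cast; ring
    rw [h2]
    exact Dvd.dvd.mul_left (Dvd.intro _ rfl) _
  have hdv : C ((M ^ T * γ : ℕ) : ℤ) ∣ G := by
    rw [C_dvd_iff_dvd_coeff]
    intro i
    rcases Nat.lt_or_ge i 2 with hi | hi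
    · interval_cases i
      · rw [hG0]; exact dvd_zero _
      · rw [hG1]; exact Dvd.intro _ rfl
    · exact (Dvd.intro _ rfl).trans (hG2 i hi)
  obtain ⟨P, hP⟩ := hdv
  have hW2 : ((M ^ T * γ : ℕ) : ℤ) ≠ 0 := by positivity
  have hPc : ∀ i, G.coeff i = ((M ^ T * γ : ℕ) : ℤ) * P.coeff i := fun i => by
    rw [hP, coeff_C_mul]
  refine ⟨n0, M ^ T * γ, P, Nat.mod_lt _ hW0, Dvd.intro _ rfl, ?_, hP.symm, ?_, fun hp => ?_⟩
  · rw [sq]; exact Nat.mul_dvd_mul_left _ ⟨w', hw'⟩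
  · intro l hl hlp
    have hlS := (hmem l).2 ⟨hl, hlp⟩
    refine ⟨?_, ?_, fun i hi => ?_⟩
    · have := hPc 0
      rw [hG0] at this
      exact (mul_eq_zero.1 this.symm).resolve_left hW2
    · have h1 : P.coeff 1 = e' := by
        have := hPc 1
        rw [hG1] at this
        exact (mul_left_cancel₀ hW2 this).symm
      rw [h1]
      intro hd
      have := hcop.isUnit_of_dvd' hd (hlw l hlS)
      rw [Int.isUnit_iff_natAbs_eq, Int.natAbs_natCast] at this
      exact hl.one_lt.ne' this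
    · have := hG2 i hi
      rw [hPc, mul_dvd_mul_iff_left hW2] at this
      exact (hlw l hlS).trans this
  · push_cast
    apply IsCoprime.pow_right
    rw [hM]
    push_cast
    apply IsCoprime.prod_right
    intro l hl
    have h1 : IsCoprime (r + d * n) (l : ℤ) :=
      (hn2 hp).of_isCoprime_of_dvd_right (Int.natCast_dvd_natCast.2 (Finset.dvd_prod_of_mem _ hl))
    obtain ⟨u, hu⟩ := (dvd_pow_self (l : ℤ) (by omega : T ≠ 0)).trans (hcong l hl)
    have h2 : r + d * (n0 : ℤ) = r + d * n + l * (d * (u + j l)) := by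
      have : (n0 : ℤ) = n + l * j l + l * u := by linarith
      rw [this]; ring
    rw [h2]
    exact h1.add_mul_left_left _

end Crest.Agent.N41.Poly
namespace Crest.Agent.N41.Poly.LinMod
end Crest.Agent.N41.Poly.LinMod
end

-- ▼ part N41/Poly/Complete
section

/-!
# Row 41, module POLY, part 3 (helper6): complete exponential sums modulo a prime

Weyl differencing over `ZMod p`.
-/

set_option autoImplicit false

open Polynomial Finset

namespace Crest.Agent.N41.Poly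

/-- the difference polynomial has degree one less -/
lemma natDegree_taylor_sub {F : Type} [Field F] (P : F[X]) (n : ℕ) (hP : P.natDegree = n + 1)
    (hc : ((n + 1 : ℕ) : F) ≠ 0) {h : F} (hh : h ≠ 0) : (taylor h P - P).natDegree = n := by
  have hP0 : P ≠ 0 := by rintro rfl; simp at hP
  have hl : P.coeff (n + 1) ≠ 0 := by
    rw [← hP]; exact leadingCoeff_ne_zero.2 hP0
  apply natDegree_eq_of_le_of_coeff_ne_zero
  · rw [natDegree_le_iff_coeff_eq_zero]
    intro N hN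
    rcases Nat.lt_or_ge (n + 1) N with h1 | h1
    · rw [coeff_sub, coeff_eq_zero_of_natDegree_lt (by rw [natDegree_taylor]; omega),
        coeff_eq_zero_of_natDegree_lt (by omega), sub_zero]
    · have : N = P.natDegree := by omega
      rw [this, coeff_sub, coeff_taylor_natDegree, leadingCoeff, sub_self]
  · have h1 : (hasseDeriv n P).natDegree ≤ 1 := by
      have := natDegree_hasseDeriv_le P n
      omega
    rw [coeff_sub, taylor_coeff, eq_X_add_C_of_natDegree_le_one h1, hasseDeriv_coeff,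
      hasseDeriv_coeff]
    simp only [eval_add, eval_mul, eval_C, eval_X, zero_add, Nat.choose_self, Nat.cast_one,
      one_mul, add_sub_cancel_right]
    rw [add_comm 1 n, Nat.choose_succ_self_right]
    exact mul_ne_zero (mul_ne_zero hc hl) hh

/-- Weyl differencing on a finite field -/
lemma norm_sq_sum_le {F : Type} [Field F] [Fintype F] (ψ : AddChar F ℂ) (P : F[X]) :
    ‖∑ x, ψ (P.eval x)‖ ^ 2 ≤ ∑ h, ‖∑ x, ψ ((taylor h P - P).eval x)‖ := by
  have h1 : ((‖∑ x, ψ (P.eval x)‖ ^ 2 : ℝ) : ℂ) = ∑ h, ∑ x, ψ ((taylor h P - P).eval x) := by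
    rw [← Complex.normSq_eq_norm_sq, ← Complex.mul_conj, map_sum, sum_mul_sum, sum_comm,
      sum_comm (f := fun h x => ψ ((taylor h P - P).eval x))]
    refine sum_congr rfl fun x _ => ?_
    rw [← Equiv.sum_comp (Equiv.addLeft x)]
    refine sum_congr rfl fun h _ => ?_
    rw [← AddChar.map_neg_eq_conj, ← AddChar.map_add_eq_mul, eval_sub, taylor_eval,
      sub_eq_add_neg]
    rfl
  have h2 : ‖∑ x, ψ (P.eval x)‖ ^ 2 = ‖((‖∑ x, ψ (P.eval x)‖ ^ 2 : ℝ) : ℂ)‖ := by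
    rw [Complex.norm_real, Real.norm_eq_abs, abs_of_nonneg (by positivity)]
  rw [h2, h1]
  exact norm_sum_le _ _

/-- the complete sum of a polynomial of degree `n + 1 < p` -/
lemma complete_aux (p : ℕ) [Fact p.Prime] (n : ℕ) : ∀ P : (ZMod p)[X], P.natDegree = n + 1 →
    n + 1 < p → ‖∑ x, ZMod.stdAddChar (P.eval x)‖ ≤ 2 * p * (p : ℝ) ^ (-(1 / 2 ^ n : ℝ)) := by
  have hp : p.Prime := Fact.out
  have hp1 : (1 : ℝ) ≤ p := by exact_mod_cast hp.one_lt.le
  have hp0 : (0 : ℝ) < p := by linarith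
  induction n with
  | zero =>
    intro P hP _
    have hP0 : P ≠ 0 := by rintro rfl; simp at hP
    have hl : P.coeff 1 ≠ 0 := by
      have := leadingCoeff_ne_zero.2 hP0
      rwa [leadingCoeff, hP] at this
    have h1 : ∀ x, ZMod.stdAddChar (P.eval x) =
        ZMod.stdAddChar (x * P.coeff 1) * ZMod.stdAddChar (P.coeff 0) := by
      intro x
      have h2 := congrArg (eval x) (eq_X_add_C_of_natDegree_le_one hP.le)
      rw [eval_add, eval_mul, eval_C, eval_C, eval_X, mul_comm] at h2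
      rw [← AddChar.map_add_eq_mul, h2]
    simp_rw [h1]
    rw [← sum_mul, AddChar.sum_mulShift _ (ZMod.isPrimitive_stdAddChar p), if_neg hl]
    simp only [Nat.cast_zero, zero_mul, norm_zero]
    positivity
  | succ n ih =>
    intro P hP hn
    have hc : ((n + 1 + 1 : ℕ) : ZMod p) ≠ 0 := by
      rw [Ne, ZMod.natCast_eq_zero_iff]
      exact Nat.not_dvd_of_pos_of_lt (by omega) hn
    set ε : ℝ := (p : ℝ) ^ (-(1 / 2 ^ n : ℝ)) with hε
    have hε0 : 0 < ε := Real.rpow_pos_of_pos hp0 _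
    have hε1 : 1 ≤ p * ε := by
      have h1 : (p : ℝ) ^ (-1 : ℝ) ≤ ε := by
        apply Real.rpow_le_rpow_of_exponent_le hp1
        have : (1 / 2 ^ n : ℝ) ≤ 1 := by
          rw [div_le_one (by positivity)]; exact one_le_pow₀ (by norm_num)
        linarith
      rw [Real.rpow_neg_one] at h1
      calc (1 : ℝ) = p * (p : ℝ)⁻¹ := by field_simp
        _ ≤ p * ε := by gcongr
    have h1 : ∀ h : ZMod p, ‖∑ x, ZMod.stdAddChar ((taylor h P - P).eval x)‖ ≤
        (if h = 0 then (p : ℝ) else 0) + 2 * p * ε := by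
      intro h
      split_ifs with hh
      · subst hh
        simp only [taylor_zero, sub_self, eval_zero,
          AddChar.map_zero_eq_one, sum_const, card_univ, ZMod.card, nsmul_eq_mul, mul_one,
          Complex.norm_natCast, le_add_iff_nonneg_right]
        positivity
      · rw [zero_add]
        exact ih _ (natDegree_taylor_sub P (n + 1) hP hc hh) (by omega)
    have h2 : ‖∑ x, ZMod.stdAddChar (P.eval x)‖ ^ 2 ≤ p + p * (2 * p * ε) := by
      refine (norm_sq_sum_le _ P).trans ((sum_le_sum fun h _ => h1 h).trans ?_)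
      rw [sum_add_distrib]
      simp
    have h3 : ((p : ℝ) ^ (-(1 / 2 ^ (n + 1) : ℝ))) ^ 2 = ε := by
      rw [← Real.rpow_natCast, ← Real.rpow_mul hp0.le, hε]
      congr 1
      push_cast
      field_simp
      ring
    refine (abs_le_of_sq_le_sq' ?_ (by positivity)).2
    rw [mul_pow, mul_pow, h3]
    nlinarith

/-- a polynomial of degree at most `k` which is not constant modulo `p` -/
lemma natDegree_map_pos {p : ℕ} {g : ℤ[X]} (hg : ∃ j, 1 ≤ j ∧ ¬ (p : ℤ) ∣ g.coeff j) :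
    1 ≤ (g.map (Int.castRingHom (ZMod p))).natDegree := by
  obtain ⟨j, hj, hd⟩ := hg
  refine hj.trans (le_natDegree_of_ne_zero ?_)
  rw [coeff_map, eq_intCast, Ne, ZMod.intCast_zmod_eq_zero_iff_dvd]
  exact hd

/-- complete sums, `ZMod p` form -/
theorem complete_zmod (k : ℕ) : ∃ (δ : ℝ) (p₀ : ℕ), 0 < δ ∧ δ ≤ 1 ∧ k ≤ p₀ ∧
    ∀ (p : ℕ) [NeZero p] (P : (ZMod p)[X]), p.Prime → p₀ < p → 1 ≤ P.natDegree →
      P.natDegree ≤ k → ‖∑ x, ZMod.stdAddChar (P.eval x)‖ ≤ (p : ℝ) ^ (1 - δ) := by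
  refine ⟨1 / 2 ^ (k + 1), max k (2 ^ 2 ^ (k + 1)), by positivity, ?_, le_max_left _ _, ?_⟩
  · rw [div_le_one (by positivity)]; exact one_le_pow₀ (by norm_num)
  intro p _ P hp hp₀ h1 hk
  have : Fact p.Prime := ⟨hp⟩
  have hp1 : (1 : ℝ) ≤ p := by exact_mod_cast hp.one_lt.le
  have hp0 : (0 : ℝ) < p := by linarith
  obtain ⟨n, hn⟩ : ∃ n, P.natDegree = n + 1 := ⟨P.natDegree - 1, by omega⟩
  have hkp : k < p := (le_max_left _ _).trans_lt hp₀
  have h2p : 2 ^ 2 ^ (k + 1) ≤ p := ((le_max_right _ _).trans_lt hp₀).le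
  have h2 : (2 : ℝ) ≤ (p : ℝ) ^ (1 / 2 ^ (k + 1) : ℝ) := by
    have h3 : ((2 : ℝ) ^ 2 ^ (k + 1)) ≤ p := by exact_mod_cast h2p
    calc (2 : ℝ) = ((2 : ℝ) ^ 2 ^ (k + 1)) ^ (1 / 2 ^ (k + 1) : ℝ) := by
          rw [← Real.rpow_natCast, ← Real.rpow_mul (by norm_num)]
          push_cast
          rw [mul_one_div_cancel (by positivity), Real.rpow_one]
      _ ≤ _ := by gcongr
  have h3 : (p : ℝ) ^ (-(1 / 2 ^ n : ℝ)) ≤ (p : ℝ) ^ (-(1 / 2 ^ k : ℝ)) := by
    apply Real.rpow_le_rpow_of_exponent_le hp1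
    have : (1 / 2 ^ k : ℝ) ≤ 1 / 2 ^ n := by
      apply one_div_le_one_div_of_le (by positivity)
      exact pow_le_pow_right₀ (by norm_num) (by omega)
    linarith
  calc _ ≤ 2 * p * (p : ℝ) ^ (-(1 / 2 ^ n : ℝ)) := complete_aux p n P hn (by omega)
    _ ≤ (p : ℝ) ^ (1 / 2 ^ (k + 1) : ℝ) * p * (p : ℝ) ^ (-(1 / 2 ^ k : ℝ)) := by gcongr
    _ = (p : ℝ) ^ ((1 / 2 ^ (k + 1) : ℝ) + 1 + -(1 / 2 ^ k : ℝ)) := by
        rw [Real.rpow_add hp0, Real.rpow_add hp0, Real.rpow_one]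
    _ = _ := by
        congr 1
        field_simp
        ring

/-- sums over residues as sums over an interval -/
lemma sum_range_eq_sum_zmod {M : Type*} [AddCommMonoid M] (p : ℕ) [NeZero p] (f : ZMod p → M) :
    ∑ n ∈ range p, f (n : ZMod p) = ∑ x, f x := by
  refine sum_nbij' (fun n => (n : ZMod p)) (fun x => x.val) ?_ ?_ ?_ ?_ ?_
  · intro n _; exact mem_univ _
  · intro x _; exact mem_range.2 (ZMod.val_lt x)
  · intro n hn; exact ZMod.val_cast_of_lt (mem_range.1 hn)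
  · intro x _; exact ZMod.natCast_zmod_val x
  · intro n _; rfl

lemma evz_intCast (p : ℕ) (g : ℤ[X]) (n : ℤ) : evz p g (n : ZMod p) = ((g.eval n : ℤ) : ZMod p) := by
  unfold evz
  rw [eval_map, ← eq_intCast (Int.castRingHom (ZMod p)) n, eval₂_at_apply]
  rfl

lemma e_div_eq (p : ℕ) [NeZero p] (j : ℤ) :
    Exp.e ((j : ℝ) / p) = ZMod.stdAddChar (j : ZMod p) := by
  rw [ZMod.stdAddChar_coe, Exp.e]
  congr 1
  push_cast
  ring

/-- **Module C3a**. -/
theorem complete : CompleteStmt := by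
  intro k
  obtain ⟨δ, p₀, hδ, -, -, H⟩ := complete_zmod k
  refine ⟨δ, p₀, hδ, fun p g a hp hp₀ hk hg ha => ?_⟩
  have : Fact p.Prime := ⟨hp⟩
  have ha' : (a : ZMod p) ≠ 0 := by rwa [Ne, ZMod.intCast_zmod_eq_zero_iff_dvd]
  have h1 := H p (C (a : ZMod p) * g.map (Int.castRingHom (ZMod p))) hp hp₀
    (by rw [natDegree_C_mul ha']; exact natDegree_map_pos hg)
    (by rw [natDegree_C_mul ha']; exact natDegree_map_le.trans hk)
  rw [← sum_range_eq_sum_zmod] at h1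
  convert h1 using 2
  refine sum_congr rfl fun n _ => ?_
  rw [e_div_eq, eval_mul, eval_C]
  congr 1
  have := evz_intCast p g n
  rw [Int.cast_natCast] at this
  rw [Int.cast_mul, ← this]
  rfl

end Crest.Agent.N41.Poly
end

-- ▼ part N41/Poly/Kernel
section

/-!
# Row 41, module POLY, part 4 (helper6): the local kernels

Fourier analysis on `ZMod p`; the operator norm of a convolution kernel on functions of mean zero
is at most its largest nontrivial Fourier coefficient.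
-/

set_option autoImplicit false

open Polynomial Finset
open scoped BigOperators

namespace Crest.Agent.N41.Poly

section Fourier

variable {p : ℕ} [NeZero p]

/-- unnormalised Fourier transform of a real function -/
noncomputable def ft (f : ZMod p → ℝ) (ξ : ZMod p) : ℂ :=
  ∑ s, (f s : ℂ) * ZMod.stdAddChar (s * ξ)

lemma sum_char (z : ZMod p) :
    ∑ ξ : ZMod p, ZMod.stdAddChar (z * ξ) = if z = 0 then (p : ℂ) else 0 := by
  have := AddChar.sum_mulShift z (ZMod.isPrimitive_stdAddChar p)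
  simp_rw [mul_comm z]
  rw [this]
  split_ifs <;> simp

lemma ft_neg (f : ZMod p → ℝ) (ξ : ZMod p) : ft f (-ξ) = (starRingEnd ℂ) (ft f ξ) := by
  unfold ft
  rw [map_sum]
  refine sum_congr rfl fun s _ => ?_
  rw [map_mul (starRingEnd ℂ), Complex.conj_ofReal, ← AddChar.map_neg_eq_conj, mul_neg]

lemma sum_ft_mul (a b : ZMod p → ℝ) :
    ∑ ξ, ft a ξ * ft b (-ξ) = (p : ℂ) * ((∑ s, a s * b s : ℝ) : ℂ) := by
  have h1 : ∀ ξ, ft a ξ * ft b (-ξ) =
      ∑ s, ∑ t, (a s : ℂ) * b t * ZMod.stdAddChar ((s - t) * ξ) := by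
    intro ξ
    unfold ft
    rw [sum_mul_sum]
    refine sum_congr rfl fun s _ => sum_congr rfl fun t _ => ?_
    rw [show (s - t) * ξ = s * ξ + t * -ξ by ring, AddChar.map_add_eq_mul]
    ring
  simp_rw [h1]
  rw [sum_comm]
  push_cast
  rw [mul_sum]
  refine sum_congr rfl fun s _ => ?_
  rw [sum_comm]
  simp_rw [← mul_sum, sum_char, sub_eq_zero]
  simp [mul_comm]

/-- Parseval -/
lemma sum_norm_ft_sq (a : ZMod p → ℝ) : ∑ ξ, ‖ft a ξ‖ ^ 2 = p * ∑ s, a s ^ 2 := by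
  have h := sum_ft_mul a a
  simp_rw [ft_neg, Complex.mul_conj, Complex.normSq_eq_norm_sq, ← pow_two] at h
  exact_mod_cast h

lemma ft_conv (u κ : ZMod p → ℝ) (ξ : ZMod p) :
    ft (fun t => ∑ s, u s * κ (t - s)) ξ = ft u ξ * ft κ ξ := by
  unfold ft
  rw [sum_mul_sum]
  push_cast
  simp_rw [sum_mul]
  rw [sum_comm]
  refine sum_congr rfl fun s _ => ?_
  rw [← Equiv.sum_comp (Equiv.addLeft s)]
  refine sum_congr rfl fun z _ => ?_
  simp only [Equiv.coe_addLeft, add_sub_cancel_left, add_mul, AddChar.map_add_eq_mul]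
  ring

/-- the operator norm on functions of mean zero is at most the largest Fourier coefficient -/
theorem opBd_of_ft (κ : ZMod p → ℝ) {ρ : ℝ}
    (h : ∀ ξ, ξ ≠ 0 → ‖ft κ ξ‖ ≤ ρ * p) : OpBd κ ρ := by
  intro u v hu
  have hp0 : (0 : ℝ) < p := by exact_mod_cast Nat.pos_of_ne_zero (NeZero.ne p)
  have hu0 : ft u 0 = 0 := by
    unfold ft
    simp only [mul_zero, AddChar.map_zero_eq_one, mul_one]
    exact_mod_cast hu
  set T : ℝ := ∑ t, (∑ s, u s * κ (t - s)) * v t with hT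
  have h1 := sum_ft_mul (fun t => ∑ s, u s * κ (t - s)) v
  simp_rw [ft_conv] at h1
  rw [← hT] at h1
  have h2 : p * |T| ≤ ρ * p * ∑ ξ, ‖ft u ξ‖ * ‖ft v ξ‖ := by
    have h3 : p * |T| = ‖(p : ℂ) * (T : ℂ)‖ := by
      rw [norm_mul, Complex.norm_natCast, Complex.norm_real, Real.norm_eq_abs]
    rw [h3, ← h1, mul_sum]
    refine (norm_sum_le _ _).trans (sum_le_sum fun ξ _ => ?_)
    rw [norm_mul, norm_mul, ft_neg, Complex.norm_conj]
    by_cases hξ : ξ = 0
    · subst hξ; simp [hu0]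
    · calc ‖ft u ξ‖ * ‖ft κ ξ‖ * ‖ft v ξ‖ ≤ ‖ft u ξ‖ * (ρ * p) * ‖ft v ξ‖ := by
            gcongr; exact h ξ hξ
        _ = _ := by ring
  have h3 : |T| ≤ ρ * ∑ ξ, ‖ft u ξ‖ * ‖ft v ξ‖ := by
    have : p * |T| ≤ p * (ρ * ∑ ξ, ‖ft u ξ‖ * ‖ft v ξ‖) := by linarith
    exact le_of_mul_le_mul_left this hp0
  have h4 := sum_mul_sq_le_sq_mul_sq univ (fun ξ => ‖ft u ξ‖) (fun ξ => ‖ft v ξ‖)
  rw [sum_norm_ft_sq, sum_norm_ft_sq] at h4
  have h5 : T ^ 2 ≤ ρ ^ 2 * ((p * ∑ s, u s ^ 2) * (p * ∑ s, v s ^ 2)) := by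
    calc T ^ 2 = |T| ^ 2 := (sq_abs T).symm
      _ ≤ (ρ * ∑ ξ, ‖ft u ξ‖ * ‖ft v ξ‖) ^ 2 := by gcongr
      _ ≤ _ := by rw [mul_pow]; gcongr
  have h6 : (𝔼 s, 𝔼 t, u s * v t * κ (t - s)) = T / p ^ 2 := by
    simp only [Fintype.expect_eq_sum_div_card, ZMod.card]
    rw [← sum_div, div_div, ← pow_two, hT, sum_comm]
    congr 1
    refine sum_congr rfl fun t _ => ?_
    rw [sum_mul]
    exact sum_congr rfl fun s _ => by ring
  rw [h6]
  simp only [Fintype.expect_eq_sum_div_card, ZMod.card]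
  rw [div_pow, div_le_iff₀ (by positivity)]
  refine h5.trans (le_of_eq ?_)
  field_simp

lemma sum_push_mul {M : Type*} [AddCommMonoid M] [Module ℝ M] (g : ℤ[X]) (π : ZMod p → ℝ)
    (φ : ZMod p → M) : ∑ t, push p g π t • φ t = ∑ n, π n • φ (evz p g n) := by
  unfold push
  simp_rw [sum_smul]
  rw [← sum_fiberwise (s := univ) (g := fun n => evz p g n) (f := fun n => π n • φ (evz p g n))]
  refine sum_congr rfl fun t _ => sum_congr rfl fun n hn => ?_
  rw [(mem_filter.1 hn).2]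

lemma ft_push (g : ℤ[X]) (π : ZMod p → ℝ) (ξ : ZMod p) :
    ft (push p g π) ξ = ∑ n, (π n : ℂ) * ZMod.stdAddChar (evz p g n * ξ) := by
  have := sum_push_mul (M := ℂ) g π fun t => ZMod.stdAddChar (t * ξ)
  simpa only [ft, Complex.real_smul] using this

lemma sum_push (g : ℤ[X]) (π : ZMod p → ℝ) : ∑ t, push p g π t = ∑ n, π n := by
  have := sum_push_mul (M := ℝ) g π fun _ => 1
  simpa using this

end Fourier

/-- the number of zeros of a nonzero polynomial over a finite field -/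
lemma card_filter_eval_le {F : Type} [Field F] [Fintype F] [DecidableEq F] {Q : F[X]}
    (hQ : Q ≠ 0) : (univ.filter fun n => Q.eval n = 0).card ≤ Q.natDegree := by
  apply card_le_degree_of_subset_roots
  intro n hn
  rw [mem_roots hQ]
  exact (mem_filter.1 hn).2

/-- a polynomial of degree less than `p` which is not constant has a nonzero derivative -/
lemma derivative_ne_zero {p : ℕ} [Fact p.Prime] {P : (ZMod p)[X]} (h1 : 1 ≤ P.natDegree)
    (hp : P.natDegree < p) : derivative P ≠ 0 := by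
  intro h
  obtain ⟨n, hn⟩ : ∃ n, P.natDegree = n + 1 := ⟨P.natDegree - 1, by omega⟩
  have hP0 : P ≠ 0 := by rintro rfl; simp at h1
  have hl : P.coeff (n + 1) ≠ 0 := by rw [← hn]; exact leadingCoeff_ne_zero.2 hP0
  have h2 := congrArg (fun Q => coeff Q n) h
  simp only [coeff_derivative, coeff_zero] at h2
  have hc : ((n + 1 : ℕ) : ZMod p) ≠ 0 := by
    rw [Ne, ZMod.natCast_eq_zero_iff]
    exact Nat.not_dvd_of_pos_of_lt (by omega) (by omega)
  exact mul_ne_zero hl (by exact_mod_cast hc) h2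

/-- at most `k + 1` residues are not admissible -/
lemma card_compl_adm_le (pr : Bool) (p : ℕ) [NeZero p] (r d k : ℕ) (g : ℤ[X]) (hp : p.Prime)
    (hkp : k < p) (hk : g.natDegree ≤ k) (hg : ∃ j, 1 ≤ j ∧ ¬ (p : ℤ) ∣ g.coeff j)
    (hrd : pr = true → Nat.Coprime r d) : (adm pr p r d g)ᶜ.card ≤ k + 1 := by
  have : Fact p.Prime := ⟨hp⟩
  set P := g.map (Int.castRingHom (ZMod p)) with hP
  have hPk : P.natDegree ≤ k := natDegree_map_le.trans hk
  have hd : derivative P ≠ 0 := derivative_ne_zero (natDegree_map_pos hg) (hPk.trans_lt hkp)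
  have h1 := card_filter_eval_le hd
  have h2 : (derivative P).natDegree ≤ k := (natDegree_derivative_le P).trans (by omega)
  have h3 : (univ.filter fun n : ZMod p => pr = true ∧ (r : ZMod p) + d * n = 0).card ≤ 1 := by
    rw [card_le_one]
    intro a ha b hb
    obtain ⟨hpr, ha⟩ := (mem_filter.1 ha).2
    obtain ⟨-, hb⟩ := (mem_filter.1 hb).2
    have hd0 : (d : ZMod p) ≠ 0 := by
      intro h0
      rw [h0, zero_mul, add_zero] at ha
      rw [ZMod.natCast_eq_zero_iff] at h0 ha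
      exact hp.one_lt.ne' (Nat.eq_one_of_dvd_coprimes (hrd hpr) ha h0)
    apply mul_left_cancel₀ hd0
    linear_combination ha - hb
  have h4 : (adm pr p r d g)ᶜ ⊆ (univ.filter fun n => (derivative P).eval n = 0) ∪
      univ.filter fun n : ZMod p => pr = true ∧ (r : ZMod p) + d * n = 0 := by
    intro n hn
    rw [mem_compl, adm, mem_filter] at hn
    simp only [mem_union, mem_filter, mem_univ, true_and]
    by_contra hc
    push Not at hc
    refine hn ⟨mem_univ _, ?_, hc.2⟩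
    rw [evz, ← derivative_map]
    exact hc.1
  calc _ ≤ _ := card_le_card h4
    _ ≤ _ := card_union_le _ _
    _ ≤ k + 1 := by omega



lemma sum_wadm_mul {M : Type*} [AddCommMonoid M] [Module ℝ M] (pr : Bool) (p : ℕ) [NeZero p]
    (r d : ℕ) (g : ℤ[X]) (φ : ZMod p → M) : ∑ n, wadm pr p r d g n • φ n =
      ((p : ℝ) / (adm pr p r d g).card) • ∑ n ∈ adm pr p r d g, φ n := by
  unfold wadm
  simp_rw [ite_smul, zero_smul]
  rw [sum_ite_mem, univ_inter, smul_sum]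

/-- the admissible weight has mean one as soon as there is an admissible residue -/
lemma expect_wadm (pr : Bool) (p : ℕ) [NeZero p] (r d : ℕ) (g : ℤ[X])
    (h : (adm pr p r d g).Nonempty) : 𝔼 n, wadm pr p r d g n = 1 := by
  have h1 := sum_wadm_mul (M := ℝ) pr p r d g fun _ => 1
  have hp0 : (0 : ℝ) < p := by exact_mod_cast Nat.pos_of_ne_zero (NeZero.ne p)
  have h2 : (0 : ℝ) < (adm pr p r d g).card := by exact_mod_cast h.card_pos
  simp only [smul_eq_mul, mul_one, sum_const, nsmul_eq_mul] at h1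
  rw [Fintype.expect_eq_sum_div_card, ZMod.card, h1]
  field_simp

/-- **Module C3b**, with the additional fact that the weight has mean one. -/
theorem localExp' (k : ℕ) : ∃ (δ : ℝ) (p₀ : ℕ), 0 < δ ∧
    ∀ (pr : Bool) (p : ℕ) [NeZero p] (r d : ℕ) (g : ℤ[X]),
    p.Prime → p₀ < p → g.natDegree ≤ k → (∃ j, 1 ≤ j ∧ ¬ (p : ℤ) ∣ g.coeff j) →
    (pr = true → Nat.Coprime r d) →
    (𝔼 n, wadm pr p r d g n = 1) ∧ (∀ n, wadm pr p r d g n ≤ 2) ∧
      (∀ t, ker pr p r d g t ≤ 2 * k) ∧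
      𝔼 t, ker pr p r d g t = 1 ∧ OpBd (ker pr p r d g) ((p : ℝ) ^ (-δ)) := by
  obtain ⟨δ, p₀, hδ, hδ1, hkp₀, H⟩ := complete_zmod k
  -- `2 (k + 2) ≤ p ^ (δ / 2)` for large `p`
  obtain ⟨p₁, hp₁⟩ : ∃ p₁ : ℕ, ∀ p : ℕ, p₁ < p → (2 * (k + 2) : ℝ) ≤ (p : ℝ) ^ (δ / 2) := by
    refine ⟨⌈(2 * (k + 2) : ℝ) ^ (2 / δ)⌉₊, fun p hp => ?_⟩
    have h1 : (2 * (k + 2) : ℝ) ^ (2 / δ) ≤ p :=
      (Nat.le_ceil _).trans (by exact_mod_cast hp.le)
    calc (2 * (k + 2) : ℝ) = ((2 * (k + 2) : ℝ) ^ (2 / δ)) ^ (δ / 2) := by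
          rw [← Real.rpow_mul (by positivity), show 2 / δ * (δ / 2) = 1 by field_simp,
            Real.rpow_one]
      _ ≤ _ := by gcongr
  refine ⟨δ / 2, max p₀ p₁, by positivity, ?_⟩
  intro pr p _ r d g hp hpp hk hg hrd
  have : Fact p.Prime := ⟨hp⟩
  have hp₀ : p₀ < p := (le_max_left _ _).trans_lt hpp
  have hbig := hp₁ p ((le_max_right _ _).trans_lt hpp)
  have hp1 : (1 : ℝ) ≤ p := by exact_mod_cast hp.one_lt.le
  have hp0 : (0 : ℝ) < p := by linarith
  have hle : (p : ℝ) ^ (δ / 2) ≤ p := by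
    conv_rhs => rw [← Real.rpow_one p]
    exact Real.rpow_le_rpow_of_exponent_le hp1 (by linarith)
  have hc := card_compl_adm_le pr p r d k g hp (by omega) hk hg hrd
  have hcR : (((adm pr p r d g)ᶜ.card : ℕ) : ℝ) ≤ k + 1 := by exact_mod_cast hc
  have hsum : ((adm pr p r d g).card : ℝ) + ((adm pr p r d g)ᶜ.card : ℕ) = p := by
    have := card_add_card_compl (adm pr p r d g)
    rw [ZMod.card] at this
    exact_mod_cast this
  have hA : (p : ℝ) / 2 ≤ (adm pr p r d g).card := by linarith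
  have hA0 : (0 : ℝ) < (adm pr p r d g).card := by linarith
  have hw : (p : ℝ) / (adm pr p r d g).card ≤ 2 := by rw [div_le_iff₀ hA0]; linarith
  have hw2 : ∀ n, wadm pr p r d g n ≤ 2 := by
    intro n; unfold wadm; split_ifs
    · exact hw
    · norm_num
  have hmean := expect_wadm pr p r d g (card_pos.1 (by exact_mod_cast hA0))
  set P := g.map (Int.castRingHom (ZMod p)) with hP
  have hP1 : 1 ≤ P.natDegree := natDegree_map_pos hg
  have hPk : P.natDegree ≤ k := natDegree_map_le.trans hk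
  refine ⟨hmean, hw2, fun t => ?_, ?_, ?_⟩
  · have hQ : P - C t ≠ 0 := by
      intro h
      have := natDegree_sub_C (p := P) (a := t)
      rw [h, natDegree_zero] at this
      omega
    have h1 := card_filter_eval_le hQ
    rw [natDegree_sub_C] at h1
    have h2 : (univ.filter fun n => evz p g n = t).card ≤ k := by
      refine le_trans (le_of_eq ?_) (h1.trans hPk)
      congr 1
      ext n
      rw [mem_filter, mem_filter, eval_sub, eval_C, sub_eq_zero]
      rfl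
    calc ker pr p r d g t ≤ ∑ _n ∈ univ.filter fun n => evz p g n = t, (2 : ℝ) :=
          sum_le_sum fun n _ => hw2 n
      _ = 2 * ((univ.filter fun n => evz p g n = t).card : ℝ) := by
          rw [sum_const, nsmul_eq_mul, mul_comm]
      _ ≤ 2 * k := by gcongr
  · rw [Fintype.expect_eq_sum_div_card] at hmean ⊢
    rw [ker, sum_push, hmean]
  · refine opBd_of_ft _ fun ξ hξ => ?_
    have h1 := H p (C ξ * P) hp hp₀ (by rwa [natDegree_C_mul hξ]) (by rwa [natDegree_C_mul hξ])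
    have h2 := sum_wadm_mul (M := ℂ) pr p r d g fun n => ZMod.stdAddChar (evz p g n * ξ)
    simp only [Complex.real_smul] at h2
    rw [ker, ft_push, h2, norm_mul, Complex.norm_real, Real.norm_eq_abs,
      abs_of_nonneg (by positivity)]
    have h3 : ∑ n ∈ adm pr p r d g, ZMod.stdAddChar (evz p g n * ξ) =
        ∑ n, ZMod.stdAddChar ((C ξ * P).eval n) -
          ∑ n ∈ (adm pr p r d g)ᶜ, ZMod.stdAddChar (evz p g n * ξ) := by
      rw [eq_sub_iff_add_eq, sum_add_sum_compl]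
      refine sum_congr rfl fun n _ => ?_
      rw [eval_mul, eval_C, mul_comm]
      rfl
    have h4 : ‖∑ n ∈ (adm pr p r d g)ᶜ, ZMod.stdAddChar (evz p g n * ξ)‖ ≤ k + 1 := by
      refine (norm_sum_le _ _).trans ?_
      simpa using hcR
    have h5 : (1 : ℝ) ≤ (p : ℝ) ^ (1 - δ) := Real.one_le_rpow hp1 (by linarith)
    have h6 : ‖∑ n ∈ adm pr p r d g, ZMod.stdAddChar (evz p g n * ξ)‖ ≤
        (k + 2) * (p : ℝ) ^ (1 - δ) := by
      rw [h3]
      refine (norm_sub_le _ _).trans ?_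
      have : (k + 1 : ℝ) ≤ (k + 1) * (p : ℝ) ^ (1 - δ) := le_mul_of_one_le_right (by positivity) h5
      linarith
    calc _ ≤ 2 * ((k + 2) * (p : ℝ) ^ (1 - δ)) := by gcongr
      _ = 2 * (k + 2) * (p : ℝ) ^ (1 - δ) := by ring
      _ ≤ (p : ℝ) ^ (δ / 2) * (p : ℝ) ^ (1 - δ) := by gcongr
      _ = (p : ℝ) ^ (-(δ / 2)) * p := by
          rw [← Real.rpow_add hp0, ← Real.rpow_add_one hp0.ne']
          congr 1; ring

/-- **Module C3b**. -/
theorem localExp : LocalExpStmt := by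
  intro k
  obtain ⟨δ, p₀, hδ, H⟩ := localExp' k
  exact ⟨δ, p₀, hδ, fun pr p _ r d g h1 h2 h3 h4 h5 => (H pr p r d g h1 h2 h3 h4 h5).2⟩

end Crest.Agent.N41.Poly
end

-- ▼ part N41/Poly/Main
section

/-!
# Row 41, module POLY, part 5 (helper6): `RefineStmt`, `SmallStmt`, covariance of the kernels
-/

set_option autoImplicit false

open Polynomial Finset
open scoped BigOperators

namespace Crest.Agent.N41.Poly

lemma inter_of_root {pr : Bool} {r d : ℕ} {g : ℤ[X]} (h : Root pr r d g) :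
    Inter (pr = true) g r d := by
  intro q hq
  obtain ⟨n, h1, h2⟩ := h q hq
  exact ⟨n, h1, fun hp => (h2 hp).of_mul_right_left⟩

lemma root_of_inter {pr : Bool} {r d : ℕ} {g : ℤ[X]} (hd : 1 ≤ d)
    (h : Inter (pr = true) g r d) : Root pr r d g := by
  intro m hm
  obtain ⟨n, h1, h2⟩ := h (m * d) (Nat.mul_pos hm hd)
  push_cast at h1 h2
  exact ⟨n, (Dvd.intro _ rfl).trans h1, h2⟩

/-- dividing by a constant preserves `Inter` -/
lemma Inter.of_C_mul {pr : Prop} {g : ℤ[X]} {r d c : ℤ} (hc : c ≠ 0)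
    (h : Inter pr (C c * g) r d) : Inter pr g r d := by
  intro Q hQ
  obtain ⟨t, ht1, ht2⟩ := h (Q * c.natAbs)
    (Nat.one_le_iff_ne_zero.2 (mul_ne_zero (by omega) (Int.natAbs_ne_zero.2 hc)))
  refine ⟨t, ?_, fun hp => ?_⟩
  · rw [eval_mul, eval_C, Nat.cast_mul, mul_comm] at ht1
    have h1 : c * (Q : ℤ) ∣ c * g.eval t :=
      (mul_dvd_mul_right (Int.dvd_natAbs.2 dvd_rfl) _).trans ht1
    exact (mul_dvd_mul_iff_left hc).1 h1
  · have := ht2 hp
    push_cast at this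
    exact this.of_mul_right_left

/-- in the prime case the progression is reduced -/
theorem Root.coprime {r d : ℕ} {g : ℤ[X]} (h : Root true r d g) : Nat.Coprime r d := by
  obtain ⟨n, -, h1⟩ := h 1 le_rfl
  have h2 := h1 rfl
  rw [Nat.cast_one, one_mul] at h2
  exact Nat.isCoprime_iff_coprime.1 ((IsCoprime.add_mul_left_left_iff).1 h2)

theorem Root.coprime' {pr : Bool} {r d : ℕ} {g : ℤ[X]} (h : Root pr r d g) (hp : pr = true) :
    Nat.Coprime r d := by
  subst hp; exact Root.coprime h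


/-- **Module C1**. -/
theorem refine' : RefineStmt := by
  intro pr r d m g hg0 hd hm hg
  have hc0 : g.content ≠ 0 := by rwa [Ne, content_eq_zero_iff]
  have hnn : 0 ≤ g.content := by
    rw [← normalize_content]
    exact Int.nonneg_of_normalize_eq_self (by simp)
  have hcast : ((g.content.natAbs : ℕ) : ℤ) = g.content := Int.natAbs_of_nonneg hnn
  have hfac : C g.content * g.primPart = g := (eq_C_content_mul_primPart g).symm
  have h1 : Inter (pr = true) g.primPart r d :=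
    Inter.of_C_mul hc0 (by rw [hfac]; exact inter_of_root hg)
  obtain ⟨s, lam, g', hs, hlam, h2, h3, h4, h5, h6⟩ :=
    refine (isPrimitive_primPart g) (natDegree_primPart g).le h1 hm
  refine ⟨s, g.content.natAbs * lam, g', hs,
    Nat.mul_pos (Int.natAbs_pos.2 hc0) hlam, Dvd.dvd.mul_left h2 _, mul_dvd_mul_left _ h3, ?_,
    h5, root_of_inter (Nat.mul_pos hd hm) (by push_cast; exact h6)⟩
  rw [Nat.cast_mul, hcast, C_mul, mul_assoc, h4]
  conv_rhs => rw [← hfac]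
  rw [mul_comp, C_comp]
  rfl

/-- **Module C2**. -/
theorem small : SmallStmt := by
  intro k p₀
  obtain ⟨W₁, hW₁, hdiv, H⟩ := small_primes k p₀
  refine ⟨W₁ ^ 2, Nat.one_le_pow _ _ hW₁, fun pr r d g hk hd hg hr => ?_⟩
  obtain ⟨n₀, W₂, P, h1, h2, h3, h4, h5, h6⟩ := H (pr = true) g r d hg hk (inter_of_root hr)
  have hW : 0 < W₁ ^ 2 := Nat.one_le_pow _ _ hW₁
  refine ⟨n₀, W₁, W₂, P, h1, by nlinarith, Nat.pos_of_dvd_of_pos h3 hW, Nat.le_of_dvd hW h3,
    ?_, fun p hp hpW => ?_, fun p hp hpp => ⟨(hdiv p hp).2 hpp, (h5 p hp hpp).2⟩, fun hp => ?_⟩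
  · rw [h4, add_sub_cancel]; rfl
  · refine (hdiv p hp).1 ?_
    rcases (Nat.Prime.dvd_mul hp).1 hpW with h | h
    · exact h
    · exact hp.dvd_of_dvd_pow (h.trans h3)
  · refine Nat.Coprime.mul_right ?_ ?_
    · exact (Nat.coprime_add_mul_left_left r d n₀).2 (Root.coprime' hr hp)
    · have := h6 hp
      exact Nat.isCoprime_iff_coprime.1 (by exact_mod_cast this)

section Cov

variable {p : ℕ} {g g' : ℤ[X]} {ρ m μ : ℤ}



end Cov

/-- the affine bijection `n ↦ ρ + m n` -/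
noncomputable def aff {F : Type} [Field F] (ρ m : F) (hm : m ≠ 0) : F ≃ F :=
  (Equiv.mulLeft₀ m hm).trans (Equiv.addLeft ρ)

@[simp] lemma aff_apply {F : Type} [Field F] (ρ m : F) (hm : m ≠ 0) (n : F) :
    aff ρ m hm n = ρ + m * n := rfl




end Crest.Agent.N41.Poly

namespace Crest.Agent.N41

/-- **Module C1**. -/
theorem refine : RefineStmt := Poly.refine'

/-- **Module C2**. -/
theorem small : SmallStmt := Poly.small

/-- **Module C3a**. -/
theorem complete : CompleteStmt := Poly.complete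

/-- **Module C3b**. -/
theorem localExp : LocalExpStmt := Poly.localExp

end Crest.Agent.N41
end

-- ▼ part N41/Arch/Real
section

/-!
# Row 41, module C4: elementary real-variable facts about a polynomial with positive leading
coefficient (growth, monotonicity, convexity, size of increments)
-/

set_option autoImplicit false

namespace Crest.Agent.N41.Arch

open Polynomial Filter

/-- a polynomial of degree at most `n` is `O(x^n)` on `[1, ∞)` -/
lemma abs_eval_le (Q : ℝ[X]) (n : ℕ) (hn : Q.natDegree ≤ n) :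
    ∃ M : ℝ, 1 ≤ M ∧ ∀ x : ℝ, 1 ≤ x → |Q.eval x| ≤ M * x ^ n := by
  refine ⟨1 + ∑ j ∈ Finset.range (n + 1), |Q.coeff j|, ?_, fun x hx => ?_⟩
  · have : 0 ≤ ∑ j ∈ Finset.range (n + 1), |Q.coeff j| :=
      Finset.sum_nonneg fun _ _ => abs_nonneg _
    linarith
  · have hx0 : 0 ≤ x := by linarith
    rw [eval_eq_sum_range' (Nat.lt_succ_of_le hn)]
    calc |∑ j ∈ Finset.range (n + 1), Q.coeff j * x ^ j|
        ≤ ∑ j ∈ Finset.range (n + 1), |Q.coeff j * x ^ j| := Finset.abs_sum_le_sum_abs _ _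
      _ ≤ ∑ j ∈ Finset.range (n + 1), |Q.coeff j| * x ^ n := by
          refine Finset.sum_le_sum fun j hj => ?_
          rw [abs_mul, abs_of_nonneg (pow_nonneg hx0 j)]
          exact mul_le_mul_of_nonneg_left
            (pow_le_pow_right₀ hx (Nat.lt_succ_iff.mp (Finset.mem_range.mp hj))) (abs_nonneg _)
      _ = (∑ j ∈ Finset.range (n + 1), |Q.coeff j|) * x ^ n := by rw [Finset.sum_mul]
      _ ≤ _ := by
          have : 0 ≤ x ^ n := pow_nonneg hx0 n
          nlinarith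

/-- a polynomial with positive leading coefficient is eventually positive -/
lemma eventually_pos (Q : ℝ[X]) (h : 0 < Q.leadingCoeff) :
    ∃ x₀ : ℝ, ∀ x, x₀ ≤ x → 0 < Q.eval x := by
  rcases Nat.eq_zero_or_pos Q.natDegree with h0 | h0
  · refine ⟨0, fun x _ => ?_⟩
    have hQ := eq_C_of_natDegree_eq_zero h0
    have : Q.leadingCoeff = Q.coeff 0 := by rw [leadingCoeff, h0]
    rw [hQ, eval_C, ← this]
    exact h
  · have ht := tendsto_atTop_of_leadingCoeff_nonneg Q (natDegree_pos_iff_degree_pos.mp h0) h.le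
    have := (ht.eventually (eventually_gt_atTop 0))
    rw [eventually_atTop] at this
    obtain ⟨x₀, hx₀⟩ := this
    exact ⟨x₀, fun x hx => hx₀ x hx⟩

lemma leadingCoeff_derivative_pos (Q : ℝ[X]) (h : 0 < Q.leadingCoeff) (hd : 1 ≤ Q.natDegree) :
    0 < (derivative Q).leadingCoeff := by
  have h1 : (derivative Q).natDegree = Q.natDegree - 1 := natDegree_derivative Q
  rw [leadingCoeff, h1, coeff_derivative]
  have h2 : Q.natDegree - 1 + 1 = Q.natDegree := Nat.sub_add_cancel hd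
  rw [h2]
  have : (0 : ℝ) < ((Q.natDegree - 1 : ℕ) : ℝ) + 1 := by positivity
  exact mul_pos h this

/-- mean value theorem for a polynomial -/
lemma exists_mvt (Q : ℝ[X]) (x d : ℝ) (hd : 0 < d) :
    ∃ ξ : ℝ, x < ξ ∧ ξ < x + d ∧ Q.eval (x + d) - Q.eval x = d * (derivative Q).eval ξ := by
  have hc : ContinuousOn (fun t => Q.eval t) (Set.Icc x (x + d)) := Q.continuous.continuousOn
  obtain ⟨ξ, hξ, h⟩ := exists_hasDerivAt_eq_slope (fun t => Q.eval t)
    (fun t => (derivative Q).eval t) (by linarith : x < x + d) hc (fun t _ => Q.hasDerivAt t)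
  refine ⟨ξ, hξ.1, hξ.2, ?_⟩
  rw [h]
  have : x + d - x = d := by ring
  rw [this]
  field_simp

/-- all real-variable facts needed for the range of the variable -/
lemma package (H : ℝ[X]) (k : ℕ) (hk : H.natDegree = k) (h2 : 2 ≤ k)
    (hl : 1 ≤ H.leadingCoeff) :
    ∃ (n₀ : ℕ) (M : ℝ), 1 ≤ n₀ ∧ 1 ≤ M ∧ H.leadingCoeff ≤ M ∧
      (∀ x : ℝ, (n₀ : ℝ) ≤ x → x ^ k / 2 ≤ H.eval x) ∧
      (∀ x : ℝ, 1 ≤ x → H.eval x ≤ M * x ^ k) ∧
      ∀ x d : ℝ, (n₀ : ℝ) ≤ x → 0 < d → H.eval x < H.eval (x + d) ∧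
        H.eval (x + d) - H.eval x ≤ H.eval (x + d + d) - H.eval (x + d) ∧
        H.eval (x + d) - H.eval x ≤ M * d * (x + d) ^ (k - 1) := by
  have hl0 : 0 < H.leadingCoeff := by linarith
  have hd1 : (derivative H).natDegree = k - 1 := by rw [natDegree_derivative, hk]
  have hl1 := leadingCoeff_derivative_pos H hl0 (by omega)
  have hl2 := leadingCoeff_derivative_pos _ hl1 (by omega)
  obtain ⟨x₁, hx₁⟩ := eventually_pos _ hl1
  obtain ⟨x₂, hx₂⟩ := eventually_pos _ hl2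
  -- lower bound
  have hlow : 0 < (H - C (1 / 2 : ℝ) * X ^ k).leadingCoeff := by
    have hc : (H - C (1 / 2 : ℝ) * X ^ k).coeff k = H.leadingCoeff - 1 / 2 := by
      rw [coeff_sub, coeff_C_mul, coeff_X_pow, if_pos rfl, leadingCoeff, hk, mul_one]
    have hpos : 0 < (H - C (1 / 2 : ℝ) * X ^ k).coeff k := by rw [hc]; linarith
    have hle : (H - C (1 / 2 : ℝ) * X ^ k).natDegree ≤ k := by
      refine (natDegree_sub_le _ _).trans (max_le hk.le ?_)
      exact (natDegree_C_mul_le _ _).trans (natDegree_X_pow_le k)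
    have heq : (H - C (1 / 2 : ℝ) * X ^ k).natDegree = k :=
      natDegree_eq_of_le_of_coeff_ne_zero hle hpos.ne'
    rw [leadingCoeff, heq]
    exact hpos
  obtain ⟨x₃, hx₃⟩ := eventually_pos _ hlow
  obtain ⟨M₀, hM₀, hM₀'⟩ := abs_eval_le H k hk.le
  obtain ⟨M₁, hM₁, hM₁'⟩ := abs_eval_le (derivative H) (k - 1) hd1.le
  obtain ⟨n₀, hn₀⟩ := exists_nat_ge (max 1 (max x₁ (max x₂ x₃)))
  have e1 : (1 : ℝ) ≤ n₀ := (le_max_left _ _).trans hn₀
  have ex₁ : x₁ ≤ n₀ := ((le_max_left _ _).trans (le_max_right _ _)).trans hn₀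
  have ex₂ : x₂ ≤ n₀ :=
    (((le_max_left _ _).trans (le_max_right _ _)).trans (le_max_right _ _)).trans hn₀
  have ex₃ : x₃ ≤ n₀ :=
    (((le_max_right _ _).trans (le_max_right _ _)).trans (le_max_right _ _)).trans hn₀
  refine ⟨n₀, M₀ + M₁ + H.leadingCoeff, by exact_mod_cast e1, by linarith, by linarith,
    fun x hx => ?_, fun x hx => ?_, fun x d hx hd => ⟨?_, ?_, ?_⟩⟩
  · have := hx₃ x (ex₃.trans hx)
    simp only [eval_sub, eval_mul, eval_C, eval_pow, eval_X] at this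
    linarith
  · have h1 := (le_abs_self _).trans (hM₀' x hx)
    have : 0 ≤ x ^ k := pow_nonneg (by linarith) k
    nlinarith
  · obtain ⟨ξ, h1, -, h3⟩ := exists_mvt H x d hd
    have := hx₁ ξ (by linarith)
    have := mul_pos hd this
    linarith
  · obtain ⟨ξ, h1, h2', h3⟩ := exists_mvt H x d hd
    obtain ⟨ζ, h4, -, h6⟩ := exists_mvt H (x + d) d hd
    obtain ⟨θ, h7, -, h9⟩ := exists_mvt (derivative H) ξ (ζ - ξ) (by linarith)
    have h10 := hx₂ θ (by linarith)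
    have h11 : ξ + (ζ - ξ) = ζ := by ring
    rw [h11] at h9
    have h12 : 0 < (ζ - ξ) * (derivative (derivative H)).eval θ := mul_pos (by linarith) h10
    have h13 : (derivative H).eval ξ ≤ (derivative H).eval ζ := by linarith
    rw [h3, h6]
    exact mul_le_mul_of_nonneg_left h13 hd.le
  · obtain ⟨ξ, h1, h2', h3⟩ := exists_mvt H x d hd
    have hξ : 1 ≤ ξ := by linarith
    have h4 := (le_abs_self _).trans (hM₁' ξ hξ)
    have h5 : ξ ^ (k - 1) ≤ (x + d) ^ (k - 1) := pow_le_pow_left₀ (by linarith) h2'.le _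
    have h6 : 0 ≤ ξ ^ (k - 1) := pow_nonneg (by linarith) _
    have h7 : M₁ * ξ ^ (k - 1) ≤ (M₀ + M₁ + H.leadingCoeff) * (x + d) ^ (k - 1) :=
      mul_le_mul (by linarith) h5 h6 (by linarith)
    rw [h3]
    calc d * (derivative H).eval ξ ≤ d * ((M₀ + M₁ + H.leadingCoeff) * (x + d) ^ (k - 1)) :=
          mul_le_mul_of_nonneg_left (h4.trans h7) hd.le
      _ = _ := by ring

end Crest.Agent.N41.Arch
end

-- ▼ part N41/Arch/Main
section

/-!
# Row 41, module C4: the range of the variable (`ArchStmt`)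
-/

set_option autoImplicit false

namespace Crest.Agent.N41.Arch

open Polynomial Filter

/-- the purely real core: `u m = H (r + d m)` -/
lemma core (H : ℝ[X]) (k n₀ : ℕ) (M : ℝ) (h2 : 2 ≤ k) (hn₀ : 1 ≤ n₀) (hM : 1 ≤ M)
    (hlow : ∀ x : ℝ, (n₀ : ℝ) ≤ x → x ^ k / 2 ≤ H.eval x)
    (hup : ∀ x : ℝ, 1 ≤ x → H.eval x ≤ M * x ^ k)
    (hinc : ∀ x d : ℝ, (n₀ : ℝ) ≤ x → 0 < d →
      H.eval (x + d) - H.eval x ≤ M * d * (x + d) ^ (k - 1))
    (ℓ Y : ℝ) (r d : ℕ) (hrd : r < d) (hY : 12 * M * 2 ^ k ≤ Y)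
    (hℓ1 : 3 * M * (n₀ + 1) ^ k * (d : ℝ) ^ k ≤ ℓ) (hℓ2 : M * 2 ^ k * (d : ℝ) ^ k * Y ^ k ≤ ℓ) :
    ∃ X₂ : ℕ, n₀ < X₂ ∧ Y ≤ X₂ ∧ 0 ≤ H.eval ((r : ℝ) + d * n₀) ∧
      H.eval ((r : ℝ) + d * n₀) ≤ ℓ / 3 ∧ ℓ < H.eval ((r : ℝ) + d * X₂) ∧
      H.eval ((r : ℝ) + d * X₂) ≤ 4 * ℓ / 3 ∧ ℓ ≤ M * 2 ^ k * (d : ℝ) ^ k * (X₂ : ℝ) ^ k ∧
      (X₂ : ℝ) ^ 2 ≤ 8 * ℓ ∧
      (X₂ : ℝ) * (H.eval ((r : ℝ) + d * X₂ + d) - H.eval ((r : ℝ) + d * X₂)) ≤
        2 * M * 3 ^ k * ℓ := by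
  have hd1 : (1 : ℝ) ≤ d := by exact_mod_cast (by omega : 1 ≤ d)
  have hd0 : (0 : ℝ) < d := by linarith
  have hr0 : (0 : ℝ) ≤ r := Nat.cast_nonneg r
  have hrd' : (r : ℝ) ≤ d := by exact_mod_cast hrd.le
  have hn1 : (1 : ℝ) ≤ n₀ := by exact_mod_cast hn₀
  have hM0 : 0 < M := by linarith
  have hge : ∀ m : ℕ, n₀ ≤ m → (m : ℝ) ≤ (r : ℝ) + d * m ∧ (n₀ : ℝ) ≤ (r : ℝ) + d * m := by
    intro m hm
    have h1 : (n₀ : ℝ) ≤ m := by exact_mod_cast hm
    have h2 : (m : ℝ) ≤ d * m := by nlinarith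
    constructor <;> linarith
  have hℓ0 : 0 < ℓ := lt_of_lt_of_le (by positivity) hℓ1
  -- value at `n₀`
  have h0 : 0 ≤ H.eval ((r : ℝ) + d * n₀) := by
    refine le_trans ?_ (hlow _ (hge n₀ le_rfl).2)
    positivity
  have h1 : H.eval ((r : ℝ) + d * n₀) ≤ ℓ / 3 := by
    have ha : (r : ℝ) + d * n₀ ≤ (n₀ + 1) * d := by nlinarith
    have hb := hup _ (hn1.trans (hge n₀ le_rfl).2)
    have hc : ((r : ℝ) + d * n₀) ^ k ≤ ((n₀ + 1) * d) ^ k :=
      pow_le_pow_left₀ (by positivity) ha k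
    rw [mul_pow] at hc
    have := mul_le_mul_of_nonneg_left hc hM0.le
    linarith
  -- existence of a large value
  have hex : ∃ m : ℕ, n₀ ≤ m ∧ ℓ < H.eval ((r : ℝ) + d * m) := by
    obtain ⟨m, hm⟩ := exists_nat_gt (2 * ℓ + n₀)
    have hm' : n₀ ≤ m := by
      have : (n₀ : ℝ) ≤ m := by linarith
      exact_mod_cast this
    refine ⟨m, hm', lt_of_lt_of_le ?_ (hlow _ (hge m hm').2)⟩
    have ha : (1 : ℝ) ≤ (r : ℝ) + d * m := hn1.trans (hge m hm').2
    have hb : (r : ℝ) + d * m ≤ ((r : ℝ) + d * m) ^ k := le_self_pow₀ ha (by omega)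
    have := (hge m hm').1
    linarith
  classical
  set X₂ := Nat.find hex with hX₂
  have hspec : n₀ ≤ X₂ ∧ ℓ < H.eval ((r : ℝ) + d * X₂) := Nat.find_spec hex
  have hlt : n₀ < X₂ := by
    rcases hspec.1.eq_or_lt with h | h
    · have := hspec.2
      rw [← h] at this
      linarith
    · exact h
  obtain ⟨m, hm⟩ : ∃ m, X₂ = m + 1 := ⟨X₂ - 1, by omega⟩
  have hmn : n₀ ≤ m := by omega
  have hprev : H.eval ((r : ℝ) + d * m) ≤ ℓ := by
    by_contra hc
    exact Nat.find_min hex (by omega : m < Nat.find hex) ⟨hmn, not_le.mp hc⟩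
  set y : ℝ := (r : ℝ) + d * m with hy
  have hXm : (X₂ : ℝ) = m + 1 := by rw [hm]; push_cast; ring
  have hyd : (r : ℝ) + d * X₂ = y + d := by rw [hXm, hy]; ring
  have hm1 : (1 : ℝ) ≤ m := by exact_mod_cast (by omega : 1 ≤ m)
  have hyn : (n₀ : ℝ) ≤ y := (hge m hmn).2
  have hy1 : 1 ≤ y := hn1.trans hyn
  have hmy : (m : ℝ) ≤ y := (hge m hmn).1
  have hdm : (d : ℝ) * m ≤ y := by rw [hy]; linarith
  have hdy : (d : ℝ) ≤ y := by nlinarith
  have hyk : y ^ k ≤ 2 * ℓ := by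
    have := hlow y hyn
    linarith
  have hX0 : (0 : ℝ) < X₂ := by linarith
  -- lower bound for `X₂`
  have hbig : ℓ ≤ M * 2 ^ k * (d : ℝ) ^ k * (X₂ : ℝ) ^ k := by
    have ha : (r : ℝ) + d * X₂ ≤ 2 * d * X₂ := by nlinarith
    have hb := hup ((r : ℝ) + d * X₂) (by rw [hyd]; linarith)
    have hc : ((r : ℝ) + d * X₂) ^ k ≤ (2 * d * X₂) ^ k :=
      pow_le_pow_left₀ (by positivity) ha k
    rw [mul_pow, mul_pow] at hc
    have := mul_le_mul_of_nonneg_left hc hM0.le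
    have := hspec.2
    linarith
  have hYX : Y ≤ X₂ := by
    by_contra hc
    have hc' : (X₂ : ℝ) < Y := not_le.mp hc
    have h3 : (X₂ : ℝ) ^ k < Y ^ k := pow_lt_pow_left₀ hc' hX0.le (by omega)
    have h4 : 0 < M * 2 ^ k * (d : ℝ) ^ k := by positivity
    have h5 := mul_lt_mul_of_pos_left h3 h4
    have hb := hup ((r : ℝ) + d * X₂) (by rw [hyd]; linarith)
    have ha : (r : ℝ) + d * X₂ ≤ 2 * d * X₂ := by nlinarith
    have hc : ((r : ℝ) + d * X₂) ^ k ≤ (2 * d * X₂) ^ k :=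
      pow_le_pow_left₀ (by positivity) ha k
    rw [mul_pow, mul_pow] at hc
    have := mul_le_mul_of_nonneg_left hc hM0.le
    have := hspec.2
    linarith
  have hk1 : k - 1 + 1 = k := by omega
  refine ⟨X₂, hlt, hYX, h0, h1, hspec.2, ?_, hbig, ?_, ?_⟩
  · -- the last step is at most `ℓ/3`
    rw [hyd]
    have ha := hinc y d hyn hd0
    have hb : (y + d) ^ (k - 1) ≤ (2 * y) ^ (k - 1) :=
      pow_le_pow_left₀ (by linarith) (by linarith) _
    rw [mul_pow] at hb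
    have hc : (2 : ℝ) ^ (k - 1) ≤ 2 ^ k := pow_le_pow_right₀ (by norm_num) (by omega)
    have hyk' : y ^ (k - 1) * y ≤ 2 * ℓ := by rw [← pow_succ, hk1]; exact hyk
    have hp : 0 < y ^ (k - 1) := by positivity
    -- `6 M 2^k d ≤ y`
    have he : 6 * M * 2 ^ k * d ≤ y := by
      have h3 : 12 * M * 2 ^ k ≤ 2 * m := by linarith
      nlinarith
    have hf : M * d * (y + d) ^ (k - 1) ≤ M * d * (2 ^ k * y ^ (k - 1)) := by
      refine mul_le_mul_of_nonneg_left (hb.trans ?_) (by positivity)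
      exact mul_le_mul_of_nonneg_right hc hp.le
    have hg : 6 * M * 2 ^ k * d * y ^ (k - 1) ≤ y * y ^ (k - 1) :=
      mul_le_mul_of_nonneg_right he hp.le
    nlinarith
  · have ha : y ^ 2 ≤ y ^ k := pow_le_pow_right₀ hy1 h2
    have hb : (X₂ : ℝ) ≤ 2 * y := by linarith
    nlinarith
  · rw [hyd]
    have ha := hinc (y + d) d (by linarith) hd0
    have hb : (X₂ : ℝ) * d ≤ y + d + d := by rw [hXm]; nlinarith
    have hp : 0 < (y + d + d) ^ (k - 1) := by positivity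
    have hc : (y + d + d) ^ k ≤ (3 * y) ^ k := pow_le_pow_left₀ (by linarith) (by linarith) _
    rw [mul_pow] at hc
    have hd' : (y + d + d) ^ (k - 1) * (y + d + d) = (y + d + d) ^ k := by rw [← pow_succ, hk1]
    calc (X₂ : ℝ) * (H.eval (y + d + d) - H.eval (y + d))
        ≤ X₂ * (M * d * (y + d + d) ^ (k - 1)) := mul_le_mul_of_nonneg_left ha hX0.le
      _ = M * ((y + d + d) ^ (k - 1) * (X₂ * d)) := by ring
      _ ≤ M * ((y + d + d) ^ (k - 1) * (y + d + d)) :=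
          mul_le_mul_of_nonneg_left (mul_le_mul_of_nonneg_left hb hp.le) hM0.le
      _ ≤ M * (3 ^ k * (2 * ℓ)) := by
          rw [hd']
          refine mul_le_mul_of_nonneg_left (hc.trans ?_) hM0.le
          exact mul_le_mul_of_nonneg_left hyk (by positivity)
      _ = _ := by ring

/-- the powers of `N` that occur -/
lemma powers (k : ℕ) (h2 : 2 ≤ k) (A : ℝ) (hA : 1 ≤ A) :
    ∃ N₀ : ℝ, ∀ (N ℓ d : ℝ), N₀ ≤ N → 0 ≤ d → d ≤ N ^ (1 / (4 * k) : ℝ) →
      N ^ (1 - 1 / (4 * k) : ℝ) ≤ ℓ →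
      A ≤ N ^ (1 / (2 * k) : ℝ) ∧ A * d ^ k * (N ^ (1 / (2 * k) : ℝ)) ^ k ≤ ℓ ∧
        ∀ lam : ℝ, 0 ≤ lam → lam ≤ N ^ (1 / (4 * k) : ℝ) → A * lam ^ 2 ≤ ℓ := by
  have hk : (2 : ℝ) ≤ k := by exact_mod_cast h2
  have hk0 : (0 : ℝ) < k := by linarith
  refine ⟨A ^ (8 * k), fun N ℓ d hN hd0 hd hℓ => ?_⟩
  have hA0 : 0 < A := by linarith
  have hN1 : 1 ≤ N := (one_le_pow₀ hA).trans hN
  have hN0 : 0 < N := by linarith
  have hAN : A ≤ N ^ (1 / (8 * k) : ℝ) := by
    have h1 : (A ^ (8 * k)) ^ (1 / (8 * k) : ℝ) ≤ N ^ (1 / (8 * k) : ℝ) :=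
      Real.rpow_le_rpow (by positivity) hN (by positivity)
    have h2 : (A ^ (8 * k)) ^ (1 / (8 * k) : ℝ) = A := by
      rw [← Real.rpow_natCast, ← Real.rpow_mul hA0.le]
      have : ((8 * k : ℕ) : ℝ) * (1 / (8 * k)) = 1 := by push_cast; field_simp
      rw [this, Real.rpow_one]
    linarith
  have hinv : 1 / (k : ℝ) ≤ 1 / 2 := one_div_le_one_div_of_le (by norm_num) hk
  have hinv0 : 0 < 1 / (k : ℝ) := by positivity
  have e8 : (1 / (8 * k) : ℝ) = 1 / 8 * (1 / k) := by field_simp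
  have e4 : (1 / (4 * k) : ℝ) = 1 / 4 * (1 / k) := by field_simp
  have e2 : (1 / (2 * k) : ℝ) = 1 / 2 * (1 / k) := by field_simp
  refine ⟨hAN.trans (Real.rpow_le_rpow_of_exponent_le hN1 (by rw [e8, e2]; linarith)), ?_, ?_⟩
  · have h1 : d ^ k ≤ N ^ (1 / 4 : ℝ) := by
      refine (pow_le_pow_left₀ hd0 hd k).trans (le_of_eq ?_)
      rw [← Real.rpow_natCast, ← Real.rpow_mul hN0.le]
      congr 1
      field_simp
    have h3 : (N ^ (1 / (2 * k) : ℝ)) ^ k = N ^ (1 / 2 : ℝ) := by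
      rw [← Real.rpow_natCast, ← Real.rpow_mul hN0.le]
      congr 1
      field_simp
    rw [h3]
    calc A * d ^ k * N ^ (1 / 2 : ℝ)
        ≤ N ^ (1 / (8 * k) : ℝ) * N ^ (1 / 4 : ℝ) * N ^ (1 / 2 : ℝ) := by gcongr
      _ = N ^ (1 / (8 * k) + 1 / 4 + 1 / 2 : ℝ) := by
          rw [Real.rpow_add hN0, Real.rpow_add hN0]
      _ ≤ N ^ (1 - 1 / (4 * k) : ℝ) :=
          Real.rpow_le_rpow_of_exponent_le hN1 (by rw [e8, e4]; linarith)
      _ ≤ ℓ := hℓ
  · intro lam hl0 hl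
    calc A * lam ^ 2 ≤ N ^ (1 / (8 * k) : ℝ) * (N ^ (1 / (4 * k) : ℝ)) ^ 2 := by gcongr
      _ = N ^ (1 / (8 * k) + 1 / (4 * k) + 1 / (4 * k) : ℝ) := by
          rw [Real.rpow_add hN0, Real.rpow_add hN0]; ring
      _ ≤ N ^ (1 - 1 / (4 * k) : ℝ) :=
          Real.rpow_le_rpow_of_exponent_le hN1 (by rw [e8, e4]; linarith)
      _ ≤ ℓ := hℓ

/-- **Module C4.** -/
theorem arch : ArchStmt := by
  intro h h2 hl
  set k := h.natDegree with hk
  set H : ℝ[X] := h.map (Int.castRingHom ℝ) with hH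
  have hinj : Function.Injective (Int.castRingHom ℝ) := Int.cast_injective
  have hHk : H.natDegree = k := natDegree_map_eq_of_injective hinj h
  have hHl : H.leadingCoeff = (h.leadingCoeff : ℝ) := by
    rw [hH, leadingCoeff_map_of_injective hinj]; rfl
  have hl1 : (1 : ℝ) ≤ H.leadingCoeff := by rw [hHl]; exact_mod_cast hl
  have hev : ∀ z : ℤ, H.eval (z : ℝ) = ((h.eval z : ℤ) : ℝ) := by
    intro z
    simp [hH]
  obtain ⟨n₀, M, hn₀, hM, hlM, hlow, hup, hinc⟩ := package H k hHk h2 hl1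
  have hM0 : 0 < M := by linarith
  set A : ℝ := 72 * M * 2 ^ k * (n₀ + 1) ^ k with hA
  have hp2 : (1 : ℝ) ≤ 2 ^ k := one_le_pow₀ (by norm_num)
  have hp3 : (2 : ℝ) ^ k ≤ 3 ^ k := pow_le_pow_left₀ (by norm_num) (by norm_num) k
  have hpn : (1 : ℝ) ≤ (n₀ + 1) ^ k := one_le_pow₀ (by linarith [Nat.cast_nonneg (α := ℝ) n₀])
  have hM2 : 1 ≤ M * 2 ^ k := by nlinarith
  have hA1 : M * 2 ^ k * 72 ≤ A := by rw [hA]; nlinarith
  have hA2 : 3 * M * (n₀ + 1) ^ k ≤ A := by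
    rw [hA]
    have : 0 < M * (n₀ + 1) ^ k := by positivity
    nlinarith
  obtain ⟨N₀, hN₀⟩ := powers k h2 A (by linarith)
  refine ⟨6 * M * 3 ^ k, N₀, by nlinarith, ?_⟩
  intro N ℓ r d lam P hN hrd hlam hd hlamN hℓ _ hP
  obtain ⟨hY, hℓ2, hℓ3⟩ := hN₀ N ℓ d hN (Nat.cast_nonneg d) hd hℓ
  set Y : ℝ := N ^ (1 / (2 * k) : ℝ) with hYdef
  have hd1 : (1 : ℝ) ≤ d := by exact_mod_cast (by omega : 1 ≤ d)
  have hdk : (1 : ℝ) ≤ (d : ℝ) ^ k := one_le_pow₀ hd1
  have hY1 : 1 ≤ Y := by linarith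
  have hYk : 1 ≤ Y ^ k := one_le_pow₀ hY1
  have hlam1 : (1 : ℝ) ≤ lam := by exact_mod_cast hlam
  have hlam0 : (0 : ℝ) < lam := by linarith
  have hℓ1' : 3 * M * (n₀ + 1) ^ k * (d : ℝ) ^ k ≤ ℓ := by
    refine le_trans ?_ hℓ2
    calc 3 * M * (n₀ + 1) ^ k * (d : ℝ) ^ k ≤ A * (d : ℝ) ^ k := by gcongr
      _ ≤ A * (d : ℝ) ^ k * Y ^ k := le_mul_of_one_le_right (by positivity) hYk
  have hℓ2' : M * 2 ^ k * (d : ℝ) ^ k * Y ^ k ≤ ℓ := by
    refine le_trans ?_ hℓ2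
    gcongr
    linarith
  obtain ⟨X₂, hX, hYX, h0, h1, h3, h4, h5, h6, h7⟩ := core H k n₀ M h2 hn₀ hM hlow hup
    (fun x d hx hd => (hinc x d hx hd).2.2) ℓ Y r d hrd (by linarith) hℓ1' hℓ2'
  have hℓ0 : 0 < ℓ := lt_of_lt_of_le (by positivity) hℓ1'
  -- values of `P`
  have hPv : ∀ z : ℤ, (lam : ℝ) * ((P.eval z : ℤ) : ℝ) =
      H.eval ((r : ℝ) + d * z) - ((h.eval (r : ℤ) : ℤ) : ℝ) := by
    intro z
    have e := congrArg (eval z) hP
    simp only [eval_mul, eval_C, eval_sub, eval_comp, eval_add, eval_X] at e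
    have e' := hev ((r : ℤ) + d * z)
    push_cast at e'
    rw [e']
    exact_mod_cast e
  have hPn : ∀ m : ℕ, (lam : ℝ) * ((P.eval (m : ℤ) : ℤ) : ℝ) =
      H.eval ((r : ℝ) + d * m) - ((h.eval (r : ℤ) : ℤ) : ℝ) := fun m => by
    simpa using hPv m
  have hdP : ∀ m : ℕ, (lam : ℝ) * (dP P m : ℝ) =
      H.eval ((r : ℝ) + d * m + d) - H.eval ((r : ℝ) + d * m) := by
    intro m
    have e1 := hPv ((m : ℤ) + 1)
    have e2 := hPn m
    have e3 : (r : ℝ) + d * (((m : ℤ) + 1 : ℤ) : ℝ) = (r : ℝ) + d * m + d := by push_cast; ring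
    rw [e3] at e1
    simp only [dP, Int.cast_sub]
    linarith
  refine ⟨n₀, X₂, ⟨hn₀, hX.le, fun m hm _ => ?_, ?_, ?_, ?_, ?_, ?_⟩, hYX, fun t ht1 ht2 => ?_⟩
  · have hx : (n₀ : ℝ) ≤ (r : ℝ) + d * m := by
      have h1 : (n₀ : ℝ) ≤ m := by exact_mod_cast hm
      have h2 : (0 : ℝ) ≤ r := Nat.cast_nonneg r
      have h3 : (0 : ℝ) ≤ m := Nat.cast_nonneg m
      nlinarith
    obtain ⟨i1, i2, -⟩ := hinc _ d hx (by linarith)
    have e1 := hdP m
    have e2 := hdP (m + 1)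
    have e3 : (r : ℝ) + d * ((m + 1 : ℕ) : ℝ) = (r : ℝ) + d * m + d := by push_cast; ring
    rw [e3] at e2
    constructor
    · have : (0 : ℝ) < (dP P m : ℝ) := by
        by_contra hc
        have := mul_nonpos_of_nonneg_of_nonpos hlam0.le (not_lt.mp hc)
        linarith
      exact_mod_cast this
    · have : (dP P m : ℝ) ≤ (dP P (m + 1) : ℝ) := by
        refine le_of_mul_le_mul_left ?_ hlam0
        linarith
      exact_mod_cast this
  · refine le_of_mul_le_mul_left ?_ hlam0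
    have e1 : (lam : ℝ) * (6 * M * 3 ^ k * (d : ℝ) ^ k * (ℓ / (3 * lam))) =
        2 * M * 3 ^ k * ℓ * (d : ℝ) ^ k := by field_simp; ring
    have e2 : (lam : ℝ) * ((X₂ : ℝ) * (dP P X₂ : ℝ)) = X₂ * (lam * (dP P X₂ : ℝ)) := by ring
    rw [e1, e2, hdP]
    exact h7.trans (le_mul_of_one_le_right (by positivity) hdk)
  · refine le_of_mul_le_mul_left ?_ hlam0
    have e1 : (lam : ℝ) * (4 * (ℓ / (3 * lam))) = 4 * ℓ / 3 := by field_simp
    have e2 := hPn X₂
    have e3 := hPn n₀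
    rw [e1, Int.cast_sub]
    linarith
  · have e1 : ℓ / (3 * lam) ≤ ℓ := div_le_self hℓ0.le (by linarith)
    refine e1.trans (h5.trans ?_)
    have : M * 2 ^ k ≤ 6 * M * 3 ^ k := by nlinarith
    gcongr
  · rw [le_div_iff₀ (by linarith)]
    have e1 := hℓ3 lam hlam0.le hlamN
    have e2 : 72 * (lam : ℝ) ^ 2 ≤ ℓ := by
      refine le_trans ?_ e1
      have : (72 : ℝ) ≤ A := by linarith
      gcongr
    have e3 : ((X₂ : ℝ) * (3 * lam)) ^ 2 ≤ ℓ ^ 2 := by
      have : (0 : ℝ) ≤ (lam : ℝ) ^ 2 := by positivity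
      nlinarith
    exact (pow_le_pow_iff_left₀ (by positivity) hℓ0.le (by norm_num)).mp e3
  · -- the leading coefficient
    have hd0 : (d : ℤ) ≠ 0 := by exact_mod_cast (by omega : d ≠ 0)
    have hq1 : (C (r : ℤ) + C (d : ℤ) * X).natDegree = 1 := by
      rw [add_comm, natDegree_add_C, natDegree_C_mul_X _ hd0]
    have hq2 : (C (r : ℤ) + C (d : ℤ) * X).leadingCoeff = (d : ℤ) := by
      rw [leadingCoeff, hq1]; simp
    have hc1 : (h.comp (C (r : ℤ) + C (d : ℤ) * X)).natDegree = k := by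
      rw [natDegree_comp, hq1, mul_one]
    have hc2 : (h.comp (C (r : ℤ) + C (d : ℤ) * X)).leadingCoeff =
        h.leadingCoeff * (d : ℤ) ^ k := by
      rw [leadingCoeff_comp (by rw [hq1]; norm_num), hq2]
    have hc3 : (h.comp (C (r : ℤ) + C (d : ℤ) * X) - C (h.eval (r : ℤ))).leadingCoeff =
        h.leadingCoeff * (d : ℤ) ^ k := by
      rw [leadingCoeff, natDegree_sub_C, coeff_sub, coeff_C, if_neg (by omega), sub_zero, ← hc2,
        leadingCoeff]
    have e := congrArg leadingCoeff hP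
    rw [leadingCoeff_mul, leadingCoeff_C, hc3] at e
    have e' : (lam : ℝ) * (P.leadingCoeff : ℝ) = H.leadingCoeff * (d : ℝ) ^ k := by
      rw [hHl]; exact_mod_cast e
    have hpos : 0 ≤ (P.leadingCoeff : ℝ) := by
      by_contra hc
      have := mul_neg_of_pos_of_neg hlam0 (not_le.mp hc)
      have : 0 < H.leadingCoeff * (d : ℝ) ^ k := by positivity
      linarith
    have e1 : (P.leadingCoeff : ℝ) ≤ lam * (P.leadingCoeff : ℝ) := le_mul_of_one_le_left hpos hlam1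
    have e2 : H.leadingCoeff ≤ 6 * M * 3 ^ k := by nlinarith
    calc (P.leadingCoeff : ℝ) ≤ H.leadingCoeff * (d : ℝ) ^ k := by linarith
      _ ≤ _ := by gcongr
  · have e2 := hPn X₂
    have e3 := hPn n₀
    push_cast at ht1 ht2
    constructor
    · have : ((P.eval (n₀ : ℤ) : ℤ) : ℝ) ≤ (t : ℝ) := by
        refine le_of_mul_le_mul_left ?_ hlam0
        linarith
      exact_mod_cast this
    · have : (t : ℝ) < ((P.eval (X₂ : ℤ) : ℤ) : ℝ) := by
        refine lt_of_mul_lt_mul_left ?_ hlam0.le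
        linarith
      exact_mod_cast this

end Crest.Agent.N41.Arch
end

-- ▼ part N41/Descent
section

/-!
# Row 41, module C5: descent
-/

set_option autoImplicit false

namespace Crest.Agent.N41

open Finset Polynomial
open scoped BigOperators
open Local (Om ptA ptB RP tens)
open ES (avg es proj res qq red lift)

namespace Descent

section LamLemmas

variable {D : ℕ} {ι : Type} [Fintype ι] [DecidableEq ι] {V : ι → Type} [∀ i, Fintype (V i)]

lemma tens_sum (ν : ∀ i, (Om D → V i) → ℝ) (h : ∀ i, ∑ x, ν i x = 1) : ∑ x, tens ν x = 1 := by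
  unfold tens
  rw [Local.sum_tens_prod ν]
  exact prod_eq_one fun i _ => h i

/-- the functional of a function of the coordinates outside `S` does not see the laws on `S` -/
lemma Lam_congr_off (S : Finset ι) (ν ν' : ∀ i, (Om D → V i) → ℝ) (h : ∀ i, ∑ x, ν i x = 1)
    (h' : ∀ i, ∑ x, ν' i x = 1) (hS : ∀ i, i ∉ S → ν i = ν' i) {f : (∀ i, V i) → ℝ}
    (hf : ES.DepOn Sᶜ f) : (Lam ν fun _ => f) = Lam ν' fun _ => f := by
  let sw : (Om D → ∀ i, V i) × (Om D → ∀ i, V i) → (Om D → ∀ i, V i) × (Om D → ∀ i, V i) :=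
    fun z => (fun c => S.piecewise (z.1 c) (z.2 c), fun c => S.piecewise (z.2 c) (z.1 c))
  have hinv : Function.Involutive sw := by
    rintro ⟨x, y⟩
    refine Prod.ext ?_ ?_ <;> funext c i <;> by_cases hi : i ∈ S <;> simp [sw, hi]
  have h1 : (Lam ν fun _ => f) =
      ∑ z : (Om D → ∀ i, V i) × (Om D → ∀ i, V i), tens ν z.1 * tens ν' z.2 * ∏ c, f (z.1 c) := by
    rw [Fintype.sum_prod_type]
    refine sum_congr rfl fun x _ => ?_
    simp only
    rw [← sum_mul, ← mul_sum, tens_sum ν' h', mul_one]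
  have h2 : (Lam ν' fun _ => f) =
      ∑ z : (Om D → ∀ i, V i) × (Om D → ∀ i, V i), tens ν z.1 * tens ν' z.2 * ∏ c, f (z.2 c) := by
    rw [Fintype.sum_prod_type_right]
    refine sum_congr rfl fun x _ => ?_
    simp only
    rw [← sum_mul, ← sum_mul, tens_sum ν h, one_mul]
  rw [h1, h2]
  refine (Fintype.sum_equiv hinv.toPerm _ _ fun z => ?_).symm
  change _ = tens ν (sw z).1 * tens ν' (sw z).2 * ∏ c, f ((sw z).1 c)
  congr 1
  · unfold tens
    rw [← prod_mul_distrib, ← prod_mul_distrib]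
    refine prod_congr rfl fun i _ => ?_
    by_cases hi : i ∈ S
    · simp [sw, hi]
    · simp [sw, hi, hS i hi, mul_comm]
  · refine prod_congr rfl fun c _ => hf _ _ fun i hi => ?_
    simp [sw, Finset.mem_compl.1 hi]

/-- coordinatewise change of variables -/
lemma Lam_comp_equiv (ν : ∀ i, (Om D → V i) → ℝ) (e : ∀ i, V i ≃ V i) (f : (∀ i, V i) → ℝ) :
    (Lam ν fun _ => f) =
      Lam (fun i x => ν i (e i ∘ x)) fun _ x => f fun i => e i (x i) :=
  (Fintype.sum_equiv (Equiv.piCongrRight fun _ : Om D => Equiv.piCongrRight e) _ _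
    fun _ => rfl).symm

omit [Fintype ι] [DecidableEq ι] in
lemma sum_comp_equiv {W : Type} [Fintype W] (n : (Om D → W) → ℝ) (e : W ≃ W) :
    ∑ x, n (e ∘ x) = ∑ x, n x :=
  Fintype.sum_equiv (Equiv.piCongrRight fun _ : Om D => e) _ _ fun _ => rfl

end LamLemmas

section Poly

variable {pr : Bool} {h : ℤ[X]} {t : ℝ} {r d lam : ℕ} {g : ℤ[X]}

lemma St.natDegree_eq (hs : St pr h t r d lam g) : g.natDegree = h.natDegree := by
  have h1 : (lam : ℤ) ≠ 0 := by have := hs.lam_pos; omega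
  have h2 : (d : ℤ) ≠ 0 := by have := hs.r_lt; omega
  rw [← natDegree_C_mul h1, hs.eq]
  exact Poly.natDegree_comp_lin h r h2

lemma St.refine (hs : St pr h t r d lam g) {ρ m μ : ℕ} {g' : ℤ[X]} (hρ : ρ < m) (hμ : 1 ≤ μ)
    (hm : m ∣ μ) (he : C (μ : ℤ) * g' = g.comp (C (ρ : ℤ) + C (m : ℤ) * X))
    (hp : g'.IsPrimitive) (hr : Root pr (r + d * ρ) (d * m) g') :
    St pr h (3 * μ * t) (r + d * ρ) (d * m) (lam * μ) g' := by
  have hmμ : (m : ℝ) ≤ μ := by exact_mod_cast Nat.le_of_dvd hμ hm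
  have hd := hs.d_le
  have hl := hs.lam_le
  have hd0 : (0 : ℝ) ≤ d := Nat.cast_nonneg _
  have hm0 : (0 : ℝ) ≤ m := Nat.cast_nonneg _
  have hμ0 : (0 : ℝ) ≤ μ := Nat.cast_nonneg _
  have ht : 0 ≤ t := hd0.trans hd
  refine ⟨?_, ?_, ?_, ?_, ?_, hp, hr⟩
  · have := hs.r_lt
    have := Nat.mul_le_mul_left d (show ρ + 1 ≤ m from hρ)
    rw [mul_add, mul_one] at this
    omega
  · exact Nat.mul_pos hs.lam_pos hμ
  · push_cast
    have := mul_le_mul hd hmμ hm0 ht
    nlinarith [mul_nonneg hμ0 ht]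
  · push_cast
    have := mul_le_mul_of_nonneg_right hl hμ0
    nlinarith [mul_nonneg hμ0 ht]
  · have h1 : (C (lam : ℤ) * g).comp (Poly.lin ρ m) = (h.comp (Poly.lin r d)).comp (Poly.lin ρ m) := by
      rw [hs.eq]; rfl
    rw [comp_assoc, Poly.lin_comp_lin, mul_comp, C_comp] at h1
    rw [Nat.cast_mul, C_mul, mul_assoc, he]
    push_cast
    exact h1

lemma free_refine {A B : Finset ℤ} (hA : Free pr r d g A) (hB : B ⊆ A) {ρ m μ : ℕ} {g' : ℤ[X]}
    (hm : 1 ≤ m) (he : C (μ : ℤ) * g' = g.comp (C (ρ : ℤ) + C (m : ℤ) * X)) {c : ℤ}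
    (hc : ∀ a ∈ B, (μ : ℤ) ∣ a - c) :
    Free pr (r + d * ρ) (d * m) g' (B.image fun a => (a - c) / μ) := by
  intro a' ha' b' hb' n hn hp hab
  obtain ⟨a, ha, rfl⟩ := Finset.mem_image.1 ha'
  obtain ⟨b, hb, rfl⟩ := Finset.mem_image.1 hb'
  have h1 := congrArg (eval (n : ℤ)) he
  simp only [eval_mul, eval_C, eval_comp, eval_add, eval_X] at h1
  have h2 : a = b := by
    refine hA a (hB ha) b (hB hb) (ρ + m * n) (le_add_left (Nat.mul_pos hm hn)) (fun h' => ?_) ?_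
    · have := hp h'
      rwa [show r + d * (ρ + m * n) = r + d * ρ + d * m * n by ring]
    · push_cast
      rw [← h1, ← hab, mul_sub, Int.mul_ediv_cancel' (hc a ha), Int.mul_ediv_cancel' (hc b hb)]
      ring
  rw [h2]

end Poly

/-- multiplication by a unit as an additive automorphism -/
noncomputable def mulAut {R : Type} [Ring R] {u : R} (hu : IsUnit u) : R ≃+ R :=
  { Units.mulLeft hu.unit with map_add' := fun a b => mul_add (hu.unit : R) a b }


section Class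

variable {D : ℕ} {ι : Type} [Fintype ι] [DecidableEq ι] {q : ι → ℕ} [∀ i, NeZero (q i)]
  {ρ : ι → ℝ}

/-- one residue class: rescaling -/
lemma Lam_class (hD : 0 < D) {ν ν' : ∀ i, (Om D → ZMod (q i)) → ℝ} (hν : ∀ i, Law (ν i) (ρ i))
    (hν' : ∀ i, Law (ν' i) (ρ i)) (S : Finset ι) (c μ : ℤ) (hμ : μ ≠ 0)
    (hu : ∀ i, i ∉ S → IsUnit (μ : ZMod (q i)))
    (hS : ∀ i, i ∉ S → ∀ x, ν' i x = ν i fun ω => μ * x ω) (A : Finset ℤ) (L y : ℝ) :
    (Lam ν fun _ => proj (low q S y) (lift q (A.image fun a => c + μ * a) L)) ≤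
      Lam ν' fun _ => proj (low q ∅ y) (lift q A L) := by
  have hF : ∀ T ∈ low q S y, Disjoint T S := fun _ hT => (ES.mem_low.1 hT).1
  rw [Lam_comp_equiv ν fun i => ES.aff (q i) c μ, ES.proj_lift_image_aff hF c μ hμ hu A L,
    Lam_congr_off S _ ν' (fun i => (sum_comp_equiv _ _).trans (hν i).sum_one)
      (fun i => (hν' i).sum_one) (fun i hi => ?_)
      (ES.depOn_proj (fun T hT => Finset.subset_compl_iff_disjoint_right.2 (hF T hT)) _),
    ← ES.avg_proj_low]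
  · exact Local.Lam_avg_le hν' hD S _
  · funext x
    rw [hS i hi, ← (hν i).transl (fun ω => μ * x ω) c]
    congr 1
    funext ω
    rw [Function.comp_apply, ES.aff_apply c (hu i hi), add_comm]

/-- splitting a lift into residue classes -/
lemma Lam_split (hD : 0 < D) {ν : ∀ i, (Om D → ZMod (q i)) → ℝ} (hν : ∀ i, Law (ν i) (ρ i))
    (F : Finset (Finset ι)) (B : Finset ℤ) (b₀ : ℤ) (M J : ℕ) (hJ : 1 ≤ J)
    (hB : ∀ b ∈ B, (M : ℤ) ∣ b - b₀) (L Y : ℝ) (hY : 0 ≤ Y)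
    (hcl : ∀ (B' : Finset ℤ) (c : ℤ), B' ⊆ B → (∀ b ∈ B', ((M * J : ℕ) : ℤ) ∣ b - c) →
      (Lam ν fun _ => proj F (lift q B' (L / J))) ≤ Y) :
    (Lam ν fun _ => proj F (lift q B L)) ≤ Y := by
  have hJ0 : (0 : ℝ) < J := by exact_mod_cast hJ
  have hJ1 : (0 : ℤ) < J := by exact_mod_cast hJ
  have hroot : (Y ^ ((6 ^ D : ℕ) : ℝ)⁻¹) ^ 6 ^ D = Y := Real.rpow_inv_natCast_pow hY (by positivity)
  let φ : ℤ → ℤ := fun a => ((a - b₀) / M) % J
  have h1 : proj F (lift q B L) = fun x => ∑ j ∈ Finset.Ico (0 : ℤ) J,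
      1 / (J : ℝ) * proj F (lift q (B.filter fun a => φ a = j) (L / J)) x := by
    rw [ES.lift_fiber B L φ (Finset.Ico (0 : ℤ) J) fun a _ => Finset.mem_Ico.2
      ⟨Int.emod_nonneg _ hJ1.ne', Int.emod_lt_of_pos _ hJ1⟩, ES.proj_sum]
    funext x
    refine sum_congr rfl fun j _ => ?_
    rw [ES.lift_div, ES.proj_smul]
    field_simp
  have h2 := (Local.tens_rp hν).Lam_sum_le hD (Finset.Ico (0 : ℤ) J) (fun _ => 1 / (J : ℝ))
    (fun j => proj F (lift q (B.filter fun a => φ a = j) (L / J)))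
    (fun _ => Y ^ ((6 ^ D : ℕ) : ℝ)⁻¹) (fun _ _ => Real.rpow_nonneg hY _) fun j _ => by
      rw [hroot]
      refine hcl _ (b₀ + M * j) (Finset.filter_subset _ _) fun b hb => ?_
      obtain ⟨hb1, hb2⟩ := Finset.mem_filter.1 hb
      refine ⟨(b - b₀) / M / J, ?_⟩
      have e1 := Int.mul_ediv_cancel' (hB b hb1)
      have e2 := Int.mul_ediv_add_emod ((b - b₀) / M) J
      rw [← hb2]
      simp only [φ]
      push_cast
      linear_combination (-1) * e1 - (M : ℤ) * e2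
  have h3 : ∑ _j ∈ Finset.Ico (0 : ℤ) J, |1 / (J : ℝ)| * Y ^ ((6 ^ D : ℕ) : ℝ)⁻¹ =
      Y ^ ((6 ^ D : ℕ) : ℝ)⁻¹ := by
    rw [sum_const, Int.card_Ico, sub_zero, Int.toNat_natCast, nsmul_eq_mul,
      abs_of_pos (by positivity)]
    field_simp
  rw [h3, hroot] at h2
  rw [h1]
  exact h2

end Class

end Descent

open Descent in
/-- **Module C5**. -/
theorem descent (hR : RefineStmt) (hC : CovStmt) (hT : TransportStmt) (_hCh : ChessStmt) :
    DescentStmt := by
  intro pr h D ι _ _ q _ Cc ρ β N Z t Y hD _hk hq hinj _hN ht hY hEx r d lam g A x₁ ν W c S U s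
    hst hfree hI hW hWq hc hν hUS hBd
  have hq1 : ∀ i, 1 ≤ q i := fun i => (hq i).one_le
  have hcop := ES.pairwise_coprime hq hinj
  have hm1 : 1 ≤ W * qq q S := Nat.mul_pos hW (ES.one_le_qq hq1 S)
  obtain ⟨ρ₀, μ, g', hρ₀, hμ1, hmμ, hμd, he, hp', hr'⟩ := hR pr r d (W * qq q S) g
    hst.prim.ne_zero (by have := hst.r_lt; omega) hm1 hst.root
  rw [hst.prim.content_eq_one, Int.natAbs_one, one_mul, St.natDegree_eq hst] at hμd
  have hst' := St.refine hst hρ₀ hμ1 hmμ he hp' hr'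
  have hμR : (1 : ℝ) ≤ μ := by exact_mod_cast hμ1
  have hμZ : (0 : ℤ) < μ := by exact_mod_cast hμ1
  have hB := hBd (3 * μ * t) (by nlinarith) (by
    have : (μ : ℝ) ≤ ((W * qq q S : ℕ) : ℝ) ^ h.natDegree := by
      exact_mod_cast Nat.le_of_dvd (Nat.pow_pos hm1) hμd
    gcongr)
  have hmq : ∀ i, i ∉ S → Nat.Coprime (W * qq q S) (q i) := fun i hi => by
    have := ES.isUnit_mul_qq hcop (hWq i) hi
    rwa [Int.cast_natCast, ZMod.isUnit_iff_coprime] at this
  have hμq : ∀ i, i ∉ S → Nat.Coprime μ (q i) := fun i hi =>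
    Nat.Coprime.coprime_dvd_left hμd (Nat.Coprime.pow_left _ (hmq i hi))
  have hu : ∀ i, i ∉ S → IsUnit (μ : ZMod (q i)) := fun i hi =>
    (ZMod.isUnit_iff_coprime _ _).2 (hμq i hi)
  -- the new laws
  have hex : ∀ i, ∃ ν' : (Om D → ZMod (q i)) → ℝ,
      Valid ν' (ker pr (q i) (r + d * ρ₀) (d * (W * qq q S)) g') Cc (ρ i) (β i) ∧
        (i ∉ S → ∀ x, ν' x = ν i fun ω => (μ : ℤ) * x ω) := fun i => by
    by_cases hi : i ∈ S
    · obtain ⟨ν', h'⟩ := hEx _ _ _ _ _ hst' i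
      exact ⟨ν', h', fun h => absurd hi h⟩
    · refine ⟨fun x => ν i (mulAut (hu i hi) ∘ x), ?_, fun _ x => ?_⟩
      · have := hT D _ (ν i) _ Cc (ρ i) (β i) (mulAut (hu i hi)) (hν i)
        convert this using 1
        funext z
        exact hC pr (q i) r d ρ₀ _ μ g g' (hq i)
          ((hq i).coprime_iff_not_dvd.1 (hmq i hi).symm)
          ((hq i).coprime_iff_not_dvd.1 (hμq i hi).symm) he z
      · rw [Int.cast_natCast]; rfl
  choose ν' hν' hν'S using hex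
  -- the classes
  have hF : ∀ T ∈ low q S (Z ^ 2), Disjoint T U :=
    fun _ hT => (ES.mem_low.1 hT).1.mono_right hUS
  rw [ES.proj_res_lift hF]
  set B := A.filter fun a => ∀ i ∈ U, (a : ZMod (q i)) = s i with hBdef
  have hBA : B ⊆ A := Finset.filter_subset _ _
  obtain ⟨b₀, hb₀⟩ : ∃ b₀ : ℤ, ∀ b ∈ B, ((W * qq q U : ℕ) : ℤ) ∣ b - b₀ := by
    rcases B.eq_empty_or_nonempty with h0 | ⟨b₀, hb₀⟩
    · exact ⟨0, by simp [h0]⟩
    · refine ⟨b₀, fun b hb => ES.mul_qq_dvd_sub hcop (fun i _ => hWq i)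
        ((hc b₀ (hBA hb₀)).trans (hc b (hBA hb)).symm) fun i hi => ?_⟩
      rw [(Finset.mem_filter.1 hb₀).2 i hi, (Finset.mem_filter.1 hb).2 i hi]
  obtain ⟨J, hJ⟩ : W * qq q U ∣ μ := (Nat.mul_dvd_mul_left W (ES.qq_dvd q hUS)).trans hmμ
  have hJ1 : 1 ≤ J := Nat.pos_of_ne_zero fun h0 => by rw [h0, mul_zero] at hJ; omega
  refine Lam_split hD (fun i => (hν i).1) _ B b₀ (W * qq q U) J
    hJ1 hb₀ _ Y hY fun B' c' hB' hc' => ?_
  rw [← hJ] at hc'
  have hL : N / (3 * t) / W / qq q U / J = N / (3 * μ * t) := by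
    rw [hJ]; push_cast
    rw [div_div, div_div, div_div]
    congr 1; ring
  have hL' : N / (3 * t) / ((μ : ℤ) : ℝ) = N / (3 * μ * t) := by
    rw [div_div]; push_cast
    congr 1; ring
  have hI' := ES.inI_image_div hμZ hc' fun a ha => hI a (hBA (hB' ha))
  rw [hL'] at hI'
  rw [hL, ← ES.image_div_eq hc']
  refine (Lam_class hD (fun i => (hν i).1) (fun i => (hν' i).1) S c' μ hμZ.ne'
    (fun i hi => by rw [Int.cast_natCast]; exact hu i hi) hν'S _ _ _).trans ?_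
  exact hB _ _ _ g' _ _ ν' hst' hI' (free_refine hfree (hB'.trans hBA) hm1 he hc') hν'

end Crest.Agent.N41
end

-- ▼ part N41/PairAppLocal
section

/-!
# Row 41, module C6, part 1 (helper93): local lemmas for `PairAppStmt`

Affine changes of variable in `ZMod p`, the pulled back weights, and averages of lifts.
-/

set_option autoImplicit false

namespace Crest.Agent.N41.PairApp

open Finset Polynomial
open scoped BigOperators
open ES (avg es proj res qq red lift)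

/-- the affine bijection `z ↦ c + w z` of a field -/
noncomputable def aff {F : Type} [Field F] (c w : F) (hw : w ≠ 0) : F ≃ F :=
  (Equiv.mulLeft₀ w hw).trans (Equiv.addLeft c)

@[simp] lemma aff_apply {F : Type} [Field F] (c w : F) (hw : w ≠ 0) (z : F) :
    aff c w hw z = c + w * z := rfl

/-- the operator bound is invariant under affine changes of variable -/
lemma opBd_aff {F : Type} [Field F] [Fintype F] (K : F → ℝ) (ρ : ℝ) (c w : F) (hw : w ≠ 0)
    (h : OpBd K ρ) : OpBd (fun t => K (c + w * t)) ρ := by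
  intro u v hu
  have h1 := h (fun s => u ((aff 0 w hw).symm s)) (fun t => v ((aff c w hw).symm t)) (by
    rw [Equiv.sum_comp (aff 0 w hw).symm u]; exact hu)
  have e1 : 𝔼 s, u ((aff 0 w hw).symm s) ^ 2 = 𝔼 s, u s ^ 2 :=
    Fintype.expect_equiv (aff 0 w hw).symm _ _ fun _ => rfl
  have e2 : 𝔼 s, v ((aff c w hw).symm s) ^ 2 = 𝔼 s, v s ^ 2 :=
    Fintype.expect_equiv (aff c w hw).symm _ _ fun _ => rfl
  have e3 : 𝔼 s, 𝔼 t, u s * v t * K (c + w * (t - s)) =
      𝔼 s, 𝔼 t, u ((aff 0 w hw).symm s) * v ((aff c w hw).symm t) * K (t - s) := by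
    refine Fintype.expect_equiv (aff 0 w hw) _ _ fun s => ?_
    refine Fintype.expect_equiv (aff c w hw) _ _ fun t => ?_
    rw [Equiv.symm_apply_apply, Equiv.symm_apply_apply, aff_apply, aff_apply]
    congr 2
    ring
  rw [e1, e2, ← e3] at h1
  exact h1

section Evz

variable (p : ℕ)

lemma evz_comp_lin (g : ℤ[X]) (a b : ℤ) (n : ZMod p) :
    evz p (g.comp (C a + C b * X)) n = evz p g ((a : ZMod p) + (b : ZMod p) * n) := by
  simp [evz, Polynomial.map_comp, eval_comp]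

lemma evz_C_add_C_mul (P : ℤ[X]) (a b : ℤ) (n : ZMod p) :
    evz p (C a + C b * P) n = (a : ZMod p) + (b : ZMod p) * evz p P n := by
  simp [evz]

lemma evz_C_mul (P : ℤ[X]) (b : ℤ) (n : ZMod p) :
    evz p (C b * P) n = (b : ZMod p) * evz p P n := by
  simp [evz]

variable {p} {g P : ℤ[X]} {n₀ W₁ W₂ c₀ : ℤ}

lemma evz_rel (h : g.comp (C n₀ + C W₁ * X) = C c₀ + C W₂ * P) (n : ZMod p) :
    evz p g ((n₀ : ZMod p) + (W₁ : ZMod p) * n) = (c₀ : ZMod p) + (W₂ : ZMod p) * evz p P n := by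
  rw [← evz_comp_lin, h, evz_C_add_C_mul]

lemma evz_deriv_rel (h : g.comp (C n₀ + C W₁ * X) = C c₀ + C W₂ * P) (n : ZMod p) :
    (W₁ : ZMod p) * evz p (derivative g) ((n₀ : ZMod p) + (W₁ : ZMod p) * n) =
      (W₂ : ZMod p) * evz p (derivative P) n := by
  have h1 := congrArg derivative h
  rw [derivative_comp] at h1
  simp only [derivative_add, derivative_C, zero_add, derivative_C_mul, derivative_X,
    mul_one] at h1
  rw [← evz_comp_lin, ← evz_C_mul, ← evz_C_mul, ← h1]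

/-- a polynomial whose derivative does not vanish somewhere is not constant modulo `p` -/
lemma exists_coeff_of_deriv {n : ZMod p} (hn : evz p (derivative P) n ≠ 0) :
    ∃ j, 1 ≤ j ∧ ¬ (p : ℤ) ∣ P.coeff j := by
  by_contra hc
  push Not at hc
  apply hn
  have : (derivative P).map (Int.castRingHom (ZMod p)) = 0 := by
    ext j
    rw [coeff_map, coeff_derivative, coeff_zero, map_mul]
    have := (ZMod.intCast_zmod_eq_zero_iff_dvd _ p).2 (hc (j + 1) (by omega))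
    rw [eq_intCast, this, zero_mul]
  rw [evz, this, eval_zero]

end Evz

section Weight

variable (pr : Bool) (p : ℕ) [Fact p.Prime] (r d : ℕ) (g : ℤ[X]) (ψ : ZMod p → ℝ)

lemma wadm_nonneg (n : ZMod p) : 0 ≤ wadm pr p r d g n := by
  unfold wadm
  split_ifs
  · positivity
  · exact le_rfl

lemma mem_adm_of_ne {n : ZMod p} (hn : wadm pr p r d g n ≠ 0) : n ∈ adm pr p r d g := by
  by_contra hc
  exact hn (by simp [wadm, hc])

/-- the weight pulled back to the progression `n₀ + W₁ m` -/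
noncomputable def pw (n₀ W₁ : ℤ) (m : ZMod p) : ℝ :=
  wadm pr p r d g ((n₀ : ZMod p) + (W₁ : ZMod p) * m) *
    ψ (evz p g ((n₀ : ZMod p) + (W₁ : ZMod p) * m))

variable {pr p r d g ψ} {P : ℤ[X]} {n₀ W₁ W₂ c₀ : ℤ}

lemma push_pw (h : g.comp (C n₀ + C W₁ * X) = C c₀ + C W₂ * P) (h1 : (W₁ : ZMod p) ≠ 0)
    (h2 : (W₂ : ZMod p) ≠ 0) (t : ZMod p) :
    push p P (pw pr p r d g ψ n₀ W₁) t =
      ker pr p r d g ((c₀ : ZMod p) + (W₂ : ZMod p) * t) * ψ ((c₀ : ZMod p) + (W₂ : ZMod p) * t) := by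
  unfold ker push
  rw [Finset.sum_mul, Finset.sum_filter, Finset.sum_filter]
  refine Fintype.sum_equiv (aff (n₀ : ZMod p) (W₁ : ZMod p) h1) _ _ fun m => ?_
  rw [aff_apply, evz_rel h]
  by_cases hm : evz p P m = t
  · rw [if_pos hm, if_pos (by rw [hm]), pw, evz_rel h, hm]
  · rw [if_neg hm, if_neg]
    intro hc
    exact hm (mul_left_cancel₀ h2 (add_left_cancel hc))

lemma sum_push (P : ℤ[X]) (π : ZMod p → ℝ) : ∑ t, push p P π t = ∑ n, π n := by
  unfold push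
  exact Finset.sum_fiberwise univ (fun n => evz p P n) π

lemma expect_pw (h : g.comp (C n₀ + C W₁ * X) = C c₀ + C W₂ * P) (h1 : (W₁ : ZMod p) ≠ 0)
    (h2 : (W₂ : ZMod p) ≠ 0) :
    𝔼 m, pw pr p r d g ψ n₀ W₁ m = 𝔼 z, ker pr p r d g z * ψ z := by
  have e : 𝔼 t, push p P (pw pr p r d g ψ n₀ W₁) t = 𝔼 z, ker pr p r d g z * ψ z := by
    refine Fintype.expect_equiv (aff (c₀ : ZMod p) (W₂ : ZMod p) h2) _ _ fun t => ?_
    rw [push_pw h h1 h2, aff_apply]
  rw [← e, Finset.expect_eq_sum_div_card, Finset.expect_eq_sum_div_card, sum_push]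

lemma mem_adm_of_pw {n₀ W₁ : ℕ} (h : g.comp (C (n₀ : ℤ) + C (W₁ : ℤ) * X) = C c₀ + C W₂ * P)
    (h1 : ((W₁ : ℤ) : ZMod p) ≠ 0) {m : ZMod p} (hm : pw pr p r d g ψ n₀ W₁ m ≠ 0) :
    m ∈ adm pr p (r + d * n₀) (d * W₁) P := by
  have h3 := mem_adm_of_ne pr p r d g (left_ne_zero_of_mul hm)
  simp only [adm, mem_filter, mem_univ, true_and] at h3 ⊢
  refine ⟨?_, fun hp => ?_⟩
  · have h4 := evz_deriv_rel (p := p) h m
    intro h5
    rw [h5, mul_zero] at h4
    exact mul_ne_zero h1 h3.1 h4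
  · have h4 := h3.2 hp
    intro h5
    apply h4
    rw [← h5]
    push_cast
    ring

end Weight

section Lift

variable {ι : Type} [Fintype ι] [DecidableEq ι] (q : ι → ℕ) [∀ i, NeZero (q i)]

lemma card_model : Fintype.card (∀ i, ZMod (q i)) = qq q univ := by
  rw [Fintype.card_pi]
  simp [qq, ZMod.card]

lemma expect_lift_mul (A : Finset ℤ) (L : ℝ) (H : (∀ i, ZMod (q i)) → ℝ) :
    𝔼 x, lift q A L x * H x = (∑ a ∈ A, H (red q a)) / L := by
  classical
  have hc : ((qq q univ : ℕ) : ℝ) ≠ 0 := by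
    rw [← card_model]
    exact_mod_cast Fintype.card_ne_zero
  rw [Finset.expect_eq_sum_div_card, Finset.card_univ, card_model,
    ← Finset.sum_fiberwise A (red q) fun a => H (red q a)]
  have : ∀ x, lift q A L x * H x =
      (qq q univ : ℝ) / L * ∑ a ∈ A with red q a = x, H (red q a) := by
    intro x
    rw [Finset.sum_congr rfl (g := fun _ => H x) fun a ha => by rw [(mem_filter.1 ha).2]]
    rw [Finset.sum_const, nsmul_eq_mul, lift, mul_assoc]
  simp only [this]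
  rw [← Finset.mul_sum]
  field_simp

lemma expect_lift_pair (A B : Finset ℤ) (L : ℝ) (u v H : (∀ i, ZMod (q i)) → ℝ) :
    𝔼 x, 𝔼 x', (lift q A L x * u x) * (lift q B L x' * v x') * H (x' - x) =
      (∑ a ∈ A, ∑ b ∈ B, u (red q a) * v (red q b) * H (red q b - red q a)) / L ^ 2 := by
  have e1 : ∀ x, 𝔼 x', (lift q A L x * u x) * (lift q B L x' * v x') * H (x' - x) =
      lift q A L x * ((∑ b ∈ B, u x * v (red q b) * H (red q b - x)) / L) := by
    intro x
    rw [← expect_lift_mul q B L fun x' => u x * v x' * H (x' - x), Finset.mul_expect]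
    refine Finset.expect_congr rfl fun x' _ => ?_
    ring
  simp only [e1]
  rw [expect_lift_mul q A L fun x => (∑ b ∈ B, u x * v (red q b) * H (red q b - x)) / L,
    ← Finset.sum_div, div_div, sq]

end Lift

end Crest.Agent.N41.PairApp
end

-- ▼ part N41/PairApp

/-!
# Row 41, module C6, part 2 (helper93): `PairAppStmt`
-/

set_option autoImplicit false

namespace Crest.Agent.N41

open Finset Polynomial
open scoped BigOperators
open ES (avg es proj res qq red lift)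

namespace PairApp

lemma arch_mono {k : ℕ} {P : ℤ[X]} {X₁ X₂ : ℕ} {L Z Z' : ℝ} (h : Arch k P X₁ X₂ L Z)
    (hL : 0 ≤ L) (hZ : Z ≤ Z') : Arch k P X₁ X₂ L Z' where
  one_le := h.one_le
  le := h.le
  mono := h.mono
  step := h.step.trans (mul_le_mul_of_nonneg_right hZ hL)
  range := h.range
  big := h.big.trans (mul_le_mul_of_nonneg_right hZ (by positivity))
  small := h.small
  lead := h.lead.trans hZ

lemma natDegree_of_eq {h g : ℤ[X]} {r d lam c : ℤ} (hd : d ≠ 0) (hl : lam ≠ 0)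
    (hk : 0 < h.natDegree) (e : C lam * g = h.comp (C r + C d * X) - C c) :
    g.natDegree = h.natDegree ∧ lam * g.leadingCoeff = h.leadingCoeff * d ^ h.natDegree := by
  have h1 : (h.comp (C r + C d * X)).natDegree = h.natDegree := Poly.natDegree_comp_lin h r hd
  have h2 : (h.comp (C r + C d * X)).leadingCoeff = h.leadingCoeff * d ^ h.natDegree :=
    Poly.leadingCoeff_comp_lin h r hd
  have h3 : (C lam * g).natDegree = h.natDegree := by rw [e, natDegree_sub_C, h1]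
  have h4 : g.natDegree = h.natDegree := by rwa [natDegree_C_mul hl] at h3
  refine ⟨h4, ?_⟩
  have h5 : (C lam * g).coeff h.natDegree = lam * g.leadingCoeff := by
    rw [coeff_C_mul, leadingCoeff, h4]
  rw [← h5, e, coeff_sub, coeff_C_of_ne_zero hk.ne', sub_zero, ← h2, leadingCoeff, h1]

/-- the rescaled set -/
noncomputable def resc (A : Finset ℤ) (c : ℤ) (W : ℕ) : Finset ℤ := A.image fun a => (a - c) / W

lemma resc_eq {a c : ℤ} {W : ℕ} (h : a ≡ c [ZMOD W]) : c + W * ((a - c) / W) = a := by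
  rw [Int.mul_ediv_cancel' h.symm.dvd]
  ring

lemma mem_resc {A : Finset ℤ} {c : ℤ} {W : ℕ} (h : ∀ a ∈ A, a ≡ c [ZMOD W]) {a' : ℤ}
    (ha : a' ∈ resc A c W) : c + W * a' ∈ A := by
  obtain ⟨a, ha', rfl⟩ := mem_image.1 ha
  rwa [resc_eq (h a ha')]

lemma sum_resc {A : Finset ℤ} {c : ℤ} {W : ℕ} (h : ∀ a ∈ A, a ≡ c [ZMOD W]) (F : ℤ → ℝ) :
    ∑ a' ∈ resc A c W, F (c + W * a') = ∑ a ∈ A, F a := by
  rw [resc, Finset.sum_image]
  · exact Finset.sum_congr rfl fun a ha => by rw [resc_eq (h a ha)]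
  · intro a ha b hb hab
    have h1 := resc_eq (h a ha)
    have h2 := resc_eq (h b hb)
    simp only at hab
    rw [← h1, ← h2, hab]

lemma inI_resc {A : Finset ℤ} {c : ℤ} {W : ℕ} (hW : 1 ≤ W) (h : ∀ a ∈ A, a ≡ c [ZMOD W])
    {x L : ℝ} (hA : InI A x L) : InI (resc A c W) ((x - c) / W) (L / W) := by
  intro a' ha'
  obtain ⟨h1, h2⟩ := hA _ (mem_resc h ha')
  have hW' : (0 : ℝ) < W := by exact_mod_cast hW
  push_cast at h1 h2
  rw [← add_div, div_le_iff₀ hW', lt_div_iff₀ hW']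
  constructor <;> linarith

lemma sum_ind {ι : Type} [Fintype ι] [DecidableEq ι] (q : ι → ℕ) [∀ i, NeZero (q i)]
    (A : Finset ℤ) (T : Finset ι) (s : ∀ i, ZMod (q i)) (F : ℤ → ℝ) :
    ∑ a ∈ A, ind T s (red q a) * F a = ∑ a ∈ A with ∀ i ∈ T, red q a i = s i, F a := by
  rw [Finset.sum_filter]
  refine Finset.sum_congr rfl fun a _ => ?_
  unfold ind
  split_ifs <;> simp

end PairApp

open PairApp

theorem pairApp (pr : Bool) (hP : PairStmt pr) (hS : SmallStmt) (hA : ArchStmt)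
    (hL : LocalExpStmt) (hN : NonconstStmt) : PairAppStmt pr := by
  intro k κ Cc hk hκ hCc
  obtain ⟨pP, C₁, κ₂, D₀, hC₁, hκ₂, HP⟩ := hP k κ (2 * Cc) hk hκ (by linarith)
  obtain ⟨δ, pL, -, HL⟩ := hL k
  refine ⟨max pP pL, C₁, κ₂, D₀, hC₁, hκ₂, fun p₀ hp₀ => ?_⟩
  obtain ⟨W, hW, HS⟩ := hS k p₀
  refine ⟨W, hW, fun h hdeg hlead => ?_⟩
  obtain ⟨Ch, N₀, hCh, HA⟩ := hA h (hdeg ▸ hk) hlead
  refine ⟨Ch, max N₀ 1, hCh, ?_⟩
  intro ι _ _ q _ N Zp y t hN₀ hq hqi hqp hall hDy hyZ hZN hlog hChZ htW ht r d lam g hSt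
  have hN1 : (1 : ℝ) ≤ N := (le_max_right _ _).trans hN₀
  have hd : 1 ≤ d := by have := hSt.r_lt; omega
  have hlam : 1 ≤ lam := hSt.lam_pos
  have hgdeg : g.natDegree = k := by
    rw [← hdeg]
    refine (natDegree_of_eq (r := r) (d := d) (lam := lam) (c := 0) (by omega) (by omega)
      (by omega) ?_).1
    rw [hSt.eq, C_0, sub_zero]
  obtain ⟨n₀, W₁, W₂, P, hn₀, hW₁, hW₂, hW₂', hrel, hsm, hlin, hcop⟩ :=
    HS pr r d g hgdeg.le hd hSt.prim hSt.root
  obtain ⟨hnc, hrd⟩ := hN pr r d g hSt.prim hSt.root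
  have hndvd : ∀ i, ¬ q i ∣ W₁ * W₂ := fun i hi => absurd (hsm _ (hq i) hi) (not_le.2 (hqp i))
  refine ⟨W₂, g.eval (n₀ : ℤ), hW₂, hW₂', fun i => ?_, ?_⟩
  · exact ((Nat.Prime.coprime_iff_not_dvd (hq i)).2 fun hi => hndvd i (hi.mul_left _)).symm
  intro A Aa Ab x₀ ca cb ψ hfree hAa hAb hIa hIb hca hcb hcc hψ hψm hψo T sa sb
  have : ∀ i, Fact (q i).Prime := fun i => ⟨hq i⟩
  set c₀ : ℤ := g.eval (n₀ : ℤ) with hc₀
  have h1 : ∀ i, ((W₁ : ℤ) : ZMod (q i)) ≠ 0 := fun i hi => by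
    rw [Int.cast_natCast, ZMod.natCast_eq_zero_iff] at hi
    exact hndvd i (hi.mul_right _)
  have h2 : ∀ i, ((W₂ : ℤ) : ZMod (q i)) ≠ 0 := fun i hi => by
    rw [Int.cast_natCast, ZMod.natCast_eq_zero_iff] at hi
    exact hndvd i (hi.mul_left _)
  -- real parameters
  have ht0 : 0 < t := by linarith
  have hN0 : 0 < N := by linarith
  have hW1 : (1 : ℝ) ≤ W := by exact_mod_cast hW
  have hlam1 : (1 : ℝ) ≤ lam := by exact_mod_cast hlam
  have hW₂1 : (1 : ℝ) ≤ W₂ := by exact_mod_cast hW₂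
  have hd' : ((d * W₁ : ℕ) : ℝ) ≤ t * W := by
    push_cast
    exact mul_le_mul hSt.d_le (by exact_mod_cast hW₁) (by positivity) ht0.le
  have hlam' : ((lam * W₂ : ℕ) : ℝ) ≤ t * W := by
    push_cast
    exact mul_le_mul hSt.lam_le (by exact_mod_cast hW₂') (by positivity) ht0.le
  have hr' : r + d * n₀ < d * W₁ := by
    have := hSt.r_lt
    calc r + d * n₀ < d + d * n₀ := by omega
      _ = d * (n₀ + 1) := by ring
      _ ≤ d * W₁ := Nat.mul_le_mul_left _ hn₀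
  have hhr : h.eval ((r + d * n₀ : ℕ) : ℤ) = lam * c₀ := by
    have := congrArg (eval (n₀ : ℤ)) hSt.eq
    simp only [eval_mul, eval_C, eval_comp, eval_add, eval_X] at this
    push_cast
    rw [← this]
  have heq : C ((lam * W₂ : ℕ) : ℤ) * P =
      h.comp (C ((r + d * n₀ : ℕ) : ℤ) + C ((d * W₁ : ℕ) : ℤ) * X) -
        C (h.eval ((r + d * n₀ : ℕ) : ℤ)) := by
    have e1 : h.comp (C ((r + d * n₀ : ℕ) : ℤ) + C ((d * W₁ : ℕ) : ℤ) * X) =
        (C (lam : ℤ) * g).comp (C (n₀ : ℤ) + C (W₁ : ℤ) * X) := by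
      rw [hSt.eq, comp_assoc]
      congr 1
      simp only [add_comp, mul_comp, C_comp, X_comp]
      push_cast
      simp only [C_add, C_mul]
      ring
    rw [e1, hhr, mul_comp, C_comp, hrel]
    push_cast
    simp only [C_mul]
    ring
  have hℓ1 : N ^ (1 - 1 / (4 * h.natDegree) : ℝ) ≤ lam * N / t := by
    rw [hdeg, Real.rpow_sub hN0, Real.rpow_one]
    have : t ≤ N ^ (1 / (4 * k) : ℝ) := le_trans (le_mul_of_one_le_right ht0.le hW1) htW
    calc N / N ^ (1 / (4 * k) : ℝ) ≤ N / t := div_le_div_of_nonneg_left hN0.le ht0 this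
      _ ≤ lam * N / t := by
        gcongr
        exact le_mul_of_one_le_left hN0.le hlam1
  have hℓ2 : lam * N / t ≤ N := by
    rw [div_le_iff₀ ht0, mul_comm]
    exact mul_le_mul_of_nonneg_left hSt.lam_le hN0.le
  obtain ⟨X₁, X₂, hArch, hX₂, hrange⟩ := HA N (lam * N / t) (r + d * n₀) (d * W₁) (lam * W₂) P
    ((le_max_left _ _).trans hN₀) hr' (Nat.mul_pos hlam hW₂) (by rw [hdeg]; exact hd'.trans htW)
    (by rw [hdeg]; exact hlam'.trans htW) hℓ1 hℓ2 heq
  rw [hdeg] at hArch hX₂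
  set L : ℝ := N / (3 * t) / W₂ with hLdef
  have hLeq : lam * N / t / (3 * ((lam * W₂ : ℕ) : ℝ)) = L := by
    rw [hLdef]
    push_cast
    field_simp
  have hL0 : 0 < L := by positivity
  rw [hLeq] at hArch
  have hd1 : (1 : ℝ) ≤ ((d * W₁ : ℕ) : ℝ) := by
    have : 1 ≤ d * W₁ := by omega
    exact_mod_cast this
  have hCd : Ch * ((d * W₁ : ℕ) : ℝ) ^ k ≤ Zp := by
    refine le_trans ?_ hChZ
    gcongr
  have hdZ : ((d * W₁ : ℕ) : ℝ) ≤ Zp := by
    refine le_trans ?_ hCd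
    calc ((d * W₁ : ℕ) : ℝ) ≤ ((d * W₁ : ℕ) : ℝ) ^ k := le_self_pow₀ hd1 (by omega)
      _ ≤ _ := le_mul_of_one_le_left (by positivity) hCh
  obtain ⟨hPdeg, hPlead⟩ := natDegree_of_eq (h := h) (g := P) (by omega)
    (by have := Nat.mul_pos hlam hW₂; omega) (by omega) heq
  have hPlead' : 0 < P.leadingCoeff := by
    have h3 : (0 : ℤ) < ((lam * W₂ : ℕ) : ℤ) * P.leadingCoeff := by
      rw [hPlead]
      exact mul_pos hlead (pow_pos (by omega) _)
    exact (pos_iff_pos_of_mul_pos h3).1 (by exact_mod_cast Nat.mul_pos hlam hW₂)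
  have hlogL : Real.log L ≤ Zp := by
    refine le_trans (Real.log_le_log hL0 ?_) hlog
    rw [hLdef, div_div]
    exact div_le_self hN0.le (by nlinarith)
  -- the weights
  have hmean : ∀ i, 𝔼 m, pw pr (q i) r d g (ψ i) n₀ W₁ m = 1 := fun i => by
    rw [expect_pw hrel (h1 i) (h2 i)]
    exact hψm i
  have hadm : ∀ i m, pw pr (q i) r d g (ψ i) n₀ W₁ m ≠ 0 →
      m ∈ adm pr (q i) (r + d * n₀) (d * W₁) P := fun i m hm => mem_adm_of_pw hrel (h1 i) hm
  have hpush : ∀ i, push (q i) P (pw pr (q i) r d g (ψ i) n₀ W₁) =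
      fun z => (fun z => ker pr (q i) r d g z * ψ i z)
        ((c₀ : ZMod (q i)) + ((W₂ : ℤ) : ZMod (q i)) * z) :=
    fun i => funext fun z => push_pw hrel (h1 i) (h2 i) z
  -- the sets
  set A₁ := Aa.filter fun a => ∀ i ∈ T, red q a i = sa i with hA₁
  set B₁ := Ab.filter fun b => ∀ i ∈ T, red q b i = sb i with hB₁
  have hA₁s : A₁ ⊆ Aa := filter_subset _ _
  have hB₁s : B₁ ⊆ Ab := filter_subset _ _
  have hcA : ∀ a ∈ A₁, a ≡ ca [ZMOD W₂] := fun a ha => hca a (hA₁s ha)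
  have hcB : ∀ b ∈ B₁, b ≡ ca + c₀ [ZMOD W₂] := fun b hb => by
    refine (hcb b (hB₁s hb)).trans ?_
    have := hcc.add_left ca
    rwa [add_sub_cancel] at this
  have hdiff : ∀ a' ∈ resc A₁ ca W₂, ∀ b' ∈ resc B₁ (ca + c₀) W₂,
      N / (3 * t) < ((c₀ + W₂ * (b' - a') : ℤ) : ℝ) ∧
        ((c₀ + W₂ * (b' - a') : ℤ) : ℝ) < 3 * (N / (3 * t)) := by
    intro a' ha' b' hb'
    obtain ⟨h3, h4⟩ := hIa _ (hA₁s (mem_resc hcA ha'))
    obtain ⟨h5, h6⟩ := hIb _ (hB₁s (mem_resc hcB hb'))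
    push_cast at h3 h4 h5 h6 ⊢
    constructor <;> linarith
  have key := HP ι q P (r + d * n₀) (d * W₁) X₁ X₂ L Zp y ((x₀ - ca) / W₂)
    ((x₀ + 2 * (N / (3 * t)) - (ca + c₀ : ℤ)) / W₂)
    (fun i => pw pr (q i) r d g (ψ i) n₀ W₁) (resc A₁ ca W₂) (resc B₁ (ca + c₀) W₂)
    hq hqi (fun i => lt_of_le_of_lt ((le_max_left _ _).trans hp₀) (hqp i))
    (hPdeg.trans hdeg) hPlead' (arch_mono hArch hL0.le hCd) hr' hdZ hcop hDy hyZ (hZN.trans hX₂)
    hlogL
    (fun p hp hpZ hpq => by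
      have hle : p ≤ p₀ := by
        by_contra hc
        exact hpq (hall p hp (not_le.1 hc) hpZ)
      obtain ⟨h3, h4, h5⟩ := hlin p hp hle
      exact ⟨h4, h5, fun _ => h3.mul_left _⟩)
    (fun i => by
      have : ∃ m, pw pr (q i) r d g (ψ i) n₀ W₁ m ≠ 0 := by
        by_contra hc
        push Not at hc
        have := hmean i
        simp [hc] at this
      obtain ⟨m, hm⟩ := this
      have h3 := hadm i m hm
      simp only [adm, mem_filter, mem_univ, true_and] at h3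
      exact exists_coeff_of_deriv h3.1)
    (fun i n => by
      have h3 := (HL pr (q i) r d g (hq i)
        (lt_of_le_of_lt ((le_max_right _ _).trans hp₀) (hqp i)) hgdeg.le (hnc _ (hq i)) hrd).1
      refine ⟨mul_nonneg (wadm_nonneg _ _ _ _ _ _) (hψ i _).1, ?_⟩
      exact mul_le_mul (h3 _) (hψ i _).2 (hψ i _).1 (by norm_num))
    hmean hadm
    (fun i => by
      rw [hpush i]
      exact opBd_aff (fun z => ker pr (q i) r d g z * ψ i z) _ (c₀ : ZMod (q i))
        ((W₂ : ℤ) : ZMod (q i)) (h2 i) (hψo i))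
    (inI_resc hW₂ hcA fun a ha => hIa a (hA₁s ha))
    (inI_resc hW₂ hcB fun b hb => hIb b (hB₁s hb))
    (fun a' ha' b' hb' => by
      obtain ⟨h3, h4⟩ := hdiff a' ha' b' hb'
      have e : ((((lam * W₂ : ℕ) : ℤ) * (b' - a') + h.eval ((r + d * n₀ : ℕ) : ℤ) : ℤ) : ℝ) =
          lam * ((c₀ + W₂ * (b' - a') : ℤ) : ℝ) := by
        rw [hhr]
        push_cast
        ring
      refine hrange (b' - a') ?_ ?_
      · rw [e]
        calc lam * N / t / 3 = lam * (N / (3 * t)) := by field_simp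
          _ ≤ _ := by gcongr
      · rw [e]
        calc lam * ((c₀ + W₂ * (b' - a') : ℤ) : ℝ) ≤ lam * (3 * (N / (3 * t))) := by gcongr
          _ = lam * N / t := by field_simp)
    (fun a' ha' b' hb' m hm1 _ hm hc => by
      obtain ⟨h3, -⟩ := hdiff a' ha' b' hb'
      have h4 := hAa (hA₁s (mem_resc hcA ha'))
      have h5 := hAb (hB₁s (mem_resc hcB hb'))
      have h6 : 1 ≤ m := hArch.one_le.trans hm1
      have h7 := hfree _ h5 _ h4 (n₀ + W₁ * m) (by nlinarith)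
        (fun hp => by
          have := hm hp
          rwa [show r + d * n₀ + d * W₁ * m = r + d * (n₀ + W₁ * m) by ring] at this)
        (by
          have := congrArg (eval (m : ℤ)) hrel
          simp only [eval_mul, eval_C, eval_comp, eval_add, eval_X] at this
          push_cast
          rw [this, ← hc]
          ring)
      have h8 : c₀ + W₂ * (b' - a') = 0 := by linarith
      rw [h8, Int.cast_zero] at h3
      have : 0 < N / (3 * t) := by positivity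
      linarith)
  -- the identity
  set H := proj (low q ∅ y) fun z : ∀ i, ZMod (q i) => ∏ i, ker pr (q i) r d g (z i) * ψ i (z i)
    with hH
  have hproj : ∀ z : ∀ i, ZMod (q i), proj (low q ∅ y)
      (fun z : ∀ i, ZMod (q i) => ∏ i, push (q i) P (pw pr (q i) r d g (ψ i) n₀ W₁) (z i)) z =
      H fun i => (c₀ : ZMod (q i)) + ((W₂ : ℤ) : ZMod (q i)) * z i := by
    intro z
    have := congrFun (ES.proj_comp_equiv (fun i => aff (c₀ : ZMod (q i)) _ (h2 i)) (low q ∅ y)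
      fun z : ∀ i, ZMod (q i) => ∏ i, ker pr (q i) r d g (z i) * ψ i (z i)) z
    simp only [hpush]
    exact this
  have hsum : ∑ a' ∈ resc A₁ ca W₂, ∑ b' ∈ resc B₁ (ca + c₀) W₂, proj (low q ∅ y)
      (fun z : ∀ i, ZMod (q i) => ∏ i, push (q i) P (pw pr (q i) r d g (ψ i) n₀ W₁) (z i))
        (red q (b' - a')) =
      ∑ a ∈ Aa, ∑ b ∈ Ab, ind T sa (red q a) * ind T sb (red q b) * H (red q b - red q a) := by
    simp only [mul_assoc, ← Finset.mul_sum]
    rw [sum_ind q Aa T sa, ← hA₁, ← sum_resc hcA]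
    refine Finset.sum_congr rfl fun a' _ => ?_
    rw [sum_ind q Ab T sb, ← hB₁, ← sum_resc hcB]
    refine Finset.sum_congr rfl fun b' _ => ?_
    rw [hproj]
    congr 1
    funext i
    simp only [red, Pi.sub_apply]
    push_cast
    ring
  rw [hsum] at key
  rw [expect_lift_pair, abs_div, abs_of_pos (pow_pos hL0 2), div_le_iff₀ (pow_pos hL0 2), mul_comm]
  exact key

end Crest.Agent.N41
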